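import Mathlib

set_option autoImplicit false

open MeasureTheory ProbabilityTheory Set
open scoped ENNReal NNReal RealInnerProductSpace

namespace Crest.Agent.R322

/-- A centred Gaussian of variance `δ ^ 2` gives an interval of length `2 a` mass at most `a / δ`. -/
lemma gaussianReal_interval_le (δ : ℝ≥0) (c : ℝ) {a : ℝ} (ha : 0 < a) :
    gaussianReal 0 (δ ^ 2) {t | |c + t| ≤ a} ≤ ENNReal.ofReal a * (δ : ℝ≥0∞)⁻¹ := by
  rcases eq_or_ne δ 0 with rfl | hδ
  · have : ENNReal.ofReal a ≠ 0 := by simpa using ha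
    simp [ENNReal.mul_top this]
  have hv : δ ^ 2 ≠ 0 := pow_ne_zero _ hδ
  have hδ' : (0 : ℝ) < δ := by positivity
  rw [gaussianReal_apply _ hv]
  have hset : {t : ℝ | |c + t| ≤ a} = Icc (-a - c) (a - c) := by
    ext t; simp only [mem_ofPred_eq, mem_Icc, abs_le]; constructor <;> rintro ⟨h1, h2⟩ <;>
      constructor <;> linarith
  rw [hset]
  have hb : ∀ x, gaussianPDF 0 (δ ^ 2) x ≤ ENNReal.ofReal (1 / (2 * δ)) := by
    intro x
    unfold gaussianPDF gaussianPDFReal
    apply ENNReal.ofReal_le_ofReal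
    have h1 : Real.exp (-(x - 0) ^ 2 / (2 * ((δ ^ 2 : ℝ≥0) : ℝ))) ≤ 1 := by
      apply Real.exp_le_one_iff.2
      apply div_nonpos_of_nonpos_of_nonneg
      · nlinarith [sq_nonneg (x - 0)]
      · positivity
    have h2 : 2 * (δ : ℝ) ≤ √(2 * Real.pi * ((δ ^ 2 : ℝ≥0) : ℝ)) := by
      apply Real.le_sqrt_of_sq_le
      push_cast
      nlinarith [Real.pi_gt_three, sq_nonneg (δ : ℝ)]
    have h3 : (√(2 * Real.pi * ((δ ^ 2 : ℝ≥0) : ℝ)))⁻¹ ≤ 1 / (2 * δ) := by
      rw [one_div]
      exact inv_anti₀ (by positivity) h2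
    calc _ ≤ (√(2 * Real.pi * ((δ ^ 2 : ℝ≥0) : ℝ)))⁻¹ * 1 := by gcongr
      _ ≤ _ := by simpa using h3
  calc ∫⁻ x in Icc (-a - c) (a - c), gaussianPDF 0 (δ ^ 2) x
      ≤ ∫⁻ _ in Icc (-a - c) (a - c), ENNReal.ofReal (1 / (2 * δ)) := lintegral_mono hb
    _ = ENNReal.ofReal (1 / (2 * δ)) * ENNReal.ofReal (2 * a) := by
        rw [setLIntegral_const, Real.volume_Icc]; congr 2; ring
    _ = ENNReal.ofReal a * (δ : ℝ≥0∞)⁻¹ := by
        rw [← ENNReal.ofReal_mul (by positivity), ← ENNReal.ofReal_coe_nnreal,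
          ← ENNReal.ofReal_inv_of_pos hδ', mul_comm (ENNReal.ofReal a),
          ← ENNReal.ofReal_mul (by positivity)]
        congr 1; field_simp

variable {E : Type*} [NormedAddCommGroup E] [InnerProductSpace ℝ E] [FiniteDimensional ℝ E]
  [MeasurableSpace E] [BorelSpace E]

lemma map_inner_stdGaussian (u : E) :
    (stdGaussian E).map (fun x => ⟪u, x⟫) = gaussianReal 0 (‖u‖₊ ^ 2) := by
  have h := IsGaussian.map_eq_gaussianReal (μ := stdGaussian E) (innerSL ℝ u)
  rw [integral_strongDual_stdGaussian, variance_dual_stdGaussian, innerSL_apply_norm] at h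
  have h2 : (‖u‖ ^ 2).toNNReal = ‖u‖₊ ^ 2 := by
    ext; simp
  rw [h2] at h
  exact h

lemma indepFun_proj_inner (W : Submodule ℝ E) {u : E} (hu : u ∈ Wᗮ) :
    IndepFun (fun x => W.starProjection x) (fun x => ⟪u, x⟫) (stdGaussian E) := by
  have hG : HasGaussianLaw (fun x : E => (W.starProjection x, ⟪u, x⟫)) (stdGaussian E) :=
    (IsGaussian.hasGaussianLaw_id (μ := stdGaussian E)).map_fun
      (W.starProjection.prod (innerSL ℝ u))
  refine hG.indepFun_of_covariance_inner fun a b => ?_
  have h1 : (fun x : E => ⟪a, W.starProjection x⟫) = fun x => ⟪W.starProjection a, x⟫ := by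
    ext x; rw [Submodule.inner_starProjection_left_eq_right]
  have h2 : (fun x : E => ⟪b, ⟪u, x⟫⟫) = fun x => ⟪b • u, x⟫ := by
    ext x; simp [inner_smul_left, mul_comm]
  rw [h1, h2, ← covarianceBilin_apply_eq_cov IsGaussian.memLp_two_id, covarianceBilin_stdGaussian]
  have : ⟪W.starProjection a, u⟫ = 0 :=
    Submodule.inner_right_of_mem_orthogonal (W.starProjection_apply_mem a) hu
  change ⟪W.starProjection a, b • u⟫ = 0
  rw [inner_smul_right, this, mul_zero]

/-- The row event: all the inner products with the vectors of `V` are small. -/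
def rowEv (V : Finset E) (a : ℝ) : Set E := {x | ∀ w ∈ V, |⟪x, w⟫| ≤ a}

omit [FiniteDimensional ℝ E] in
lemma measurableSet_rowEv (V : Finset E) (a : ℝ) : MeasurableSet (rowEv V a) := by
  have : rowEv V a = ⋂ w ∈ V, {x | |⟪x, w⟫| ≤ a} := by
    ext x; simp [rowEv]
  rw [this]
  refine IsClosed.measurableSet (isClosed_biInter fun w _ => ?_)
  exact isClosed_le (by fun_prop) continuous_const

/-- Conditional small-ball estimate for one Gaussian row. -/
lemma rowEv_insert_le [DecidableEq E] (V : Finset E) (v : E) {a : ℝ} (ha : 0 < a) :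
    stdGaussian E (rowEv (insert v V) a) ≤
      stdGaussian E (rowEv V a) *
        (ENNReal.ofReal a * ‖(Submodule.span ℝ (V : Set E))ᗮ.starProjection v‖ₑ⁻¹) := by
  set W := Submodule.span ℝ (V : Set E) with hW
  set u := Wᗮ.starProjection v with hu
  have huW : u ∈ Wᗮ := Wᗮ.starProjection_apply_mem v
  have hind := indepFun_proj_inner W huW
  have hmX : Measurable (fun x : E => W.starProjection x) := by fun_prop
  have hmY : Measurable (fun x : E => ⟪u, x⟫) := by fun_prop
  rw [indepFun_iff_map_prod_eq_prod_map_map hmX.aemeasurable hmY.aemeasurable] at hind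
  let T : Set (E × ℝ) := {p | p.1 ∈ rowEv V a ∧ |⟪p.1, v⟫ + p.2| ≤ a}
  have hT : MeasurableSet T := by
    refine (measurable_fst (measurableSet_rowEv V a)).inter ?_
    exact (isClosed_le (f := fun p : E × ℝ => |⟪p.1, v⟫ + p.2|) (by fun_prop)
      continuous_const).measurableSet
  have hproj : ∀ x : E, W.starProjection x ∈ rowEv V a ↔ x ∈ rowEv V a := by
    intro x
    refine forall₂_congr fun w hw => ?_
    have hwW : w ∈ W := Submodule.subset_span hw
    rw [Submodule.inner_starProjection_left_eq_right,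
      Submodule.starProjection_eq_self_iff.2 hwW]
  have hpre : rowEv (insert v V) a = (fun x : E => (W.starProjection x, ⟪u, x⟫)) ⁻¹' T := by
    ext x
    have hx : ⟪W.starProjection x, v⟫ + ⟪u, x⟫ = ⟪x, v⟫ := by
      rw [Submodule.inner_starProjection_left_eq_right, real_inner_comm x u, ← inner_add_right,
        hu, Submodule.starProjection_add_starProjection_orthogonal]
    simp only [T, mem_preimage, mem_ofPred_eq, hproj, hx]
    simp only [rowEv, Finset.mem_insert, forall_eq_or_imp, mem_ofPred_eq]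
    exact and_comm
  rw [hpre, ← Measure.map_apply (hmX.prodMk hmY) hT, hind, map_inner_stdGaussian,
    Measure.prod_apply hT]
  calc ∫⁻ z, gaussianReal 0 (‖u‖₊ ^ 2) (Prod.mk z ⁻¹' T) ∂(stdGaussian E).map W.starProjection
      ≤ ∫⁻ z, (rowEv V a).indicator (fun _ => ENNReal.ofReal a * ‖u‖ₑ⁻¹) z
          ∂(stdGaussian E).map W.starProjection := by
        refine lintegral_mono fun z => ?_
        by_cases hz : z ∈ rowEv V a
        · rw [indicator_of_mem hz]
          have : Prod.mk z ⁻¹' T = {t | |⟪z, v⟫ + t| ≤ a} := by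
            ext t; simp [T, hz]
          rw [this]
          exact gaussianReal_interval_le ‖u‖₊ _ ha
        · have : Prod.mk z ⁻¹' T = ∅ := by
            ext t; simp [T, hz]
          simp [this]
    _ = _ := by
        rw [lintegral_indicator_const (measurableSet_rowEv V a),
          Measure.map_apply hmX (measurableSet_rowEv V a), mul_comm]
        congr 2
        ext x; exact hproj x

end Crest.Agent.R322
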