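import Mathlib
import Crest.Agent.R322.SmallBall

set_option autoImplicit false

open MeasureTheory ProbabilityTheory Set
open scoped ENNReal NNReal RealInnerProductSpace

namespace Crest.Agent.R322

variable {E : Type*} [NormedAddCommGroup E] [InnerProductSpace ℝ E] [FiniteDimensional ℝ E]
  [MeasurableSpace E] [BorelSpace E]

variable (E) in
/-- The law of `m` independent Gaussian rows. -/
noncomputable abbrev gm (m : ℕ) : Measure (Fin m → E) := Measure.pi fun _ => stdGaussian E

/-- the slab around `p` cut out by the rows of `X` -/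
def slab {m : ℕ} (X : Fin m → E) (p : E) (a : ℝ) : Set E := {s | ∀ i, |⟪X i, s - p⟫| ≤ a}

omit [FiniteDimensional ℝ E] [MeasurableSpace E] [BorelSpace E] in
lemma isClosed_slab_set (m : ℕ) (a : ℝ) :
    IsClosed {z : E × (Fin m → E) × E | z.2.2 ∈ slab z.2.1 z.1 a} := by
  have : {z : E × (Fin m → E) × E | z.2.2 ∈ slab z.2.1 z.1 a}
      = ⋂ i, {z | |⟪z.2.1 i, z.2.2 - z.1⟫| ≤ a} := by
    ext z; simp [slab]
  rw [this]
  exact isClosed_iInter fun i => isClosed_le (by fun_prop) continuous_const

lemma measurableSet_slab_set (m : ℕ) (p : E) (a : ℝ) :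
    MeasurableSet {z : (Fin m → E) × E | z.2 ∈ slab z.1 p a} :=
  measurable_prodMk_left (x := p) (isClosed_slab_set m a).measurableSet

lemma measurable_slab_measure (m : ℕ) (p : E) (a : ℝ) (ν : Measure E) [SFinite ν] :
    Measurable fun X : Fin m → E => ν (slab X p a) :=
  measurable_measure_prodMk_left (measurableSet_slab_set m p a)

lemma measurableSet_slab {m : ℕ} (X : Fin m → E) (p : E) (a : ℝ) :
    MeasurableSet (slab X p a) :=
  measurable_prodMk_left (x := X) (measurableSet_slab_set m p a)

/-- The moment estimate. -/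
lemma moment_le (m k : ℕ) (ν : Measure E) [IsFiniteMeasure ν] (p : E) {a : ℝ} (ha : 0 < a)
    (D : ℝ≥0∞)
    (hD : ∀ W : Submodule ℝ E, Module.finrank ℝ W ≤ k →
      ∫⁻ s, (‖Wᗮ.starProjection (s - p)‖ₑ⁻¹) ^ m ∂ν ≤ D) (n : ℕ) :
    ∀ V : Finset E, V.card + n ≤ k + 1 →
      ∫⁻ X, (univ.pi fun _ : Fin m => rowEv V a).indicator (fun X => ν (slab X p a) ^ n) X
          ∂gm E m ≤ stdGaussian E (rowEv V a) ^ m * (ENNReal.ofReal a ^ m * D) ^ n := by
  classical
  induction n with
  | zero =>
    intro V _
    simp only [pow_zero, mul_one]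
    rw [lintegral_indicator_const (MeasurableSet.univ_pi fun _ => measurableSet_rowEv V a),
      Measure.pi_pi]
    simp
  | succ n ih =>
    intro V hV
    let F : (Fin m → E) → E → ℝ≥0∞ := fun X s =>
      (univ.pi fun _ : Fin m => rowEv (insert (s - p) V) a).indicator
        (fun X => ν (slab X p a) ^ n) X
    have hF : ∀ X s, F X s = (slab X p a).indicator (fun _ =>
        (univ.pi fun _ : Fin m => rowEv V a).indicator (fun X => ν (slab X p a) ^ n) X) s := by
      intro X s
      simp only [F, indicator, rowEv, slab, mem_pi, mem_univ, forall_true_left, mem_ofPred_eq,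
        Finset.mem_insert, forall_eq_or_imp, forall_and]
      by_cases h1 : ∀ i, |⟪X i, s - p⟫| ≤ a <;> simp [h1]
    have hmeasG : Measurable fun X : Fin m → E =>
        (univ.pi fun _ : Fin m => rowEv V a).indicator (fun X => ν (slab X p a) ^ n) X :=
      ((measurable_slab_measure m p a ν).pow_const n).indicator
        (MeasurableSet.univ_pi fun _ => measurableSet_rowEv V a)
    have hFm : Measurable (Function.uncurry F) := by
      have : Function.uncurry F = {z : (Fin m → E) × E | z.2 ∈ slab z.1 p a}.indicator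
          (fun z => (univ.pi fun _ : Fin m => rowEv V a).indicator
            (fun X => ν (slab X p a) ^ n) z.1) := by
        ext ⟨X, s⟩
        simp only [Function.uncurry_apply_pair, hF]
        rfl
      rw [this]
      exact (hmeasG.comp measurable_fst).indicator (measurableSet_slab_set m p a)
    have h1 : ∀ X, (univ.pi fun _ : Fin m => rowEv V a).indicator
        (fun X => ν (slab X p a) ^ (n + 1)) X = ∫⁻ s, F X s ∂ν := by
      intro X
      simp_rw [hF]
      rw [lintegral_indicator_const (measurableSet_slab X p a)]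
      by_cases hX : X ∈ univ.pi fun _ : Fin m => rowEv V a
      · simp only [indicator_of_mem hX, pow_succ]
      · simp only [indicator_of_notMem hX, zero_mul]
    simp_rw [h1]
    rw [lintegral_lintegral_swap hFm.aemeasurable]
    set W := Submodule.span ℝ (V : Set E) with hW
    have hWk : Module.finrank ℝ W ≤ k := by
      have : Module.finrank ℝ W ≤ V.card := finrank_span_finset_le_card (R := ℝ) V
      omega
    calc ∫⁻ s, ∫⁻ X, F X s ∂gm E m ∂ν
        ≤ ∫⁻ s, (stdGaussian E (rowEv V a) ^ m * (ENNReal.ofReal a ^ m * D) ^ n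
            * ENNReal.ofReal a ^ m) * (‖Wᗮ.starProjection (s - p)‖ₑ⁻¹) ^ m ∂ν := by
          refine lintegral_mono fun s => ?_
          refine (ih (insert (s - p) V) ?_).trans ?_
          · have := Finset.card_insert_le (s - p) V
            omega
          · calc _ ≤ (stdGaussian E (rowEv V a) *
                  (ENNReal.ofReal a * ‖Wᗮ.starProjection (s - p)‖ₑ⁻¹)) ^ m *
                  (ENNReal.ofReal a ^ m * D) ^ n := by
                  gcongr
                  exact rowEv_insert_le V (s - p) ha
              _ = _ := by rw [mul_pow, mul_pow]; ring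
      _ = (stdGaussian E (rowEv V a) ^ m * (ENNReal.ofReal a ^ m * D) ^ n
            * ENNReal.ofReal a ^ m) * ∫⁻ s, (‖Wᗮ.starProjection (s - p)‖ₑ⁻¹) ^ m ∂ν := by
          rw [lintegral_const_mul]
          fun_prop
      _ ≤ (stdGaussian E (rowEv V a) ^ m * (ENNReal.ofReal a ^ m * D) ^ n
            * ENNReal.ofReal a ^ m) * D := by
          gcongr
          exact hD W hWk
      _ = _ := by ring

/-- The moment estimate without conditioning. -/
lemma moment_le' (m n : ℕ) (ν : Measure E) [IsFiniteMeasure ν] (p : E) {a : ℝ} (ha : 0 < a)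
    (D : ℝ≥0∞)
    (hD : ∀ W : Submodule ℝ E, Module.finrank ℝ W ≤ n →
      ∫⁻ s, (‖Wᗮ.starProjection (s - p)‖ₑ⁻¹) ^ m ∂ν ≤ D) :
    ∫⁻ X, ν (slab X p a) ^ n ∂gm E m ≤ (ENNReal.ofReal a ^ m * D) ^ n := by
  have h := moment_le m n ν p ha D hD n ∅ (by simp)
  have h0 : rowEv (∅ : Finset E) a = univ := by
    ext x; simp [rowEv]
  simpa [h0] using h

end Crest.Agent.R322
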