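import Mathlib
import Crest.Agent.R322.Moment

set_option autoImplicit false

open MeasureTheory ProbabilityTheory Set Metric Filter Topology
open scoped ENNReal NNReal RealInnerProductSpace

namespace Crest.Agent.R322

variable {E : Type*} [NormedAddCommGroup E] [InnerProductSpace ℝ E] [FiniteDimensional ℝ E]
  [MeasurableSpace E] [BorelSpace E]

/-- the measurements of `s` along the rows of `X` -/
def meas {m : ℕ} (X : Fin m → E) (s : E) : Fin m → ℝ := fun i => ⟪X i, s⟫

/-- the observation map -/
def obs {m : ℕ} (q : (Fin m → E) × E) : (Fin m → E) × (Fin m → ℝ) := (q.1, meas q.1 q.2)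

omit [FiniteDimensional ℝ E] [MeasurableSpace E] [BorelSpace E] in
lemma continuous_meas (m : ℕ) : Continuous fun q : (Fin m → E) × E => meas q.1 q.2 := by
  unfold meas
  fun_prop

omit [FiniteDimensional ℝ E] [MeasurableSpace E] [BorelSpace E] in
lemma continuous_obs (m : ℕ) : Continuous (obs : (Fin m → E) × E → _) :=
  continuous_fst.prodMk (continuous_meas m)

lemma measurable_obs (m : ℕ) : Measurable (obs : (Fin m → E) × E → _) :=
  (continuous_obs m).measurable

variable (E) in
/-- the reference measure on pairs (rows, values) -/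
noncomputable abbrev refm (m : ℕ) : Measure ((Fin m → E) × (Fin m → ℝ)) := (gm E m).prod volume

/-- the set of signals whose measurements are `η`-close to the given values -/
def near {m : ℕ} (η : ℝ) (z : (Fin m → E) × (Fin m → ℝ)) : Set E := {s | dist z.2 (meas z.1 s) ≤ η}

lemma measurableSet_near_set (m : ℕ) (η : ℝ) :
    MeasurableSet {w : ((Fin m → E) × (Fin m → ℝ)) × E | w.2 ∈ near η w.1} := by
  refine IsClosed.measurableSet ?_
  refine isClosed_le (f := fun w : ((Fin m → E) × (Fin m → ℝ)) × E => dist w.1.2 (meas w.1.1 w.2))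
    ?_ continuous_const
  unfold meas
  fun_prop

lemma measurable_near_measure (m : ℕ) (η : ℝ) (ν : Measure E) [SFinite ν] :
    Measurable fun z : (Fin m → E) × (Fin m → ℝ) => ν (near η z) :=
  measurable_measure_prodMk_left (measurableSet_near_set m η)

lemma volume_closedBall_pi (m : ℕ) (y : Fin m → ℝ) {η : ℝ} (hη : 0 ≤ η) :
    volume (closedBall y η) = ENNReal.ofReal (2 * η) ^ m := by
  rw [Real.volume_pi_closedBall y hη, ENNReal.ofReal_pow (by positivity), Fintype.card_fin]

lemma smooth_lower (m : ℕ) (ν : Measure E) [SFinite ν] {A : Set ((Fin m → E) × (Fin m → ℝ))}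
    (hA : MeasurableSet A) {η : ℝ} (hη : 0 ≤ η) :
    ENNReal.ofReal (2 * η) ^ m * (gm E m).prod ν (obs ⁻¹' A) ≤
      ∫⁻ z in cthickening η A, ν (near η z) ∂refm E m := by
  have hB : MeasurableSet (cthickening η A) := isClosed_cthickening.measurableSet
  rw [← lintegral_indicator hB, lintegral_prod _
    ((measurable_near_measure m η ν).indicator hB).aemeasurable,
    Measure.prod_apply (measurable_obs m hA), ← lintegral_const_mul _
      (measurable_measure_prodMk_left (measurable_obs m hA))]
  refine lintegral_mono fun X => ?_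
  let S : Set ((Fin m → ℝ) × E) := {w | (X, w.1) ∈ cthickening η A ∧ w.2 ∈ near η (X, w.1)}
  have hm : Measurable fun w : (Fin m → ℝ) × E => ((X, w.1), w.2) := by fun_prop
  have hS : MeasurableSet S :=
    ((measurable_prodMk_left.comp measurable_fst) hB).inter (hm (measurableSet_near_set m η))
  have h1 : ∫⁻ y, (cthickening η A).indicator (fun z => ν (near η z)) (X, y) =
      (volume : Measure (Fin m → ℝ)).prod ν S := by
    rw [Measure.prod_apply hS]
    refine lintegral_congr fun y => ?_
    by_cases hy : (X, y) ∈ cthickening η A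
    · rw [indicator_of_mem hy]
      congr 1; ext s; simp only [S, mem_preimage, mem_ofPred_eq, hy, true_and]
    · rw [indicator_of_notMem hy]
      have : Prod.mk y ⁻¹' S = ∅ := by
        ext s; simp only [S, mem_preimage, mem_ofPred_eq, hy, false_and, mem_empty_iff_false]
      simp [this]
  have hsec : MeasurableSet (Prod.mk X ⁻¹' (obs ⁻¹' A)) :=
    measurable_prodMk_left (measurable_obs m hA)
  dsimp only
  rw [h1, Measure.prod_apply_symm hS, ← lintegral_indicator_const hsec]
  refine lintegral_mono fun s => ?_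
  by_cases hs : s ∈ Prod.mk X ⁻¹' (obs ⁻¹' A)
  · rw [indicator_of_mem hs, ← volume_closedBall_pi m (meas X s) hη]
    refine measure_mono fun y hy => ⟨?_, hy⟩
    refine mem_cthickening_of_dist_le _ (X, meas X s) _ _ hs ?_
    rw [Prod.dist_eq]
    simp only [dist_self]
    exact max_le hη hy
  · simp [indicator_of_notMem hs]

omit [FiniteDimensional ℝ E] [MeasurableSpace E] [BorelSpace E] in
lemma near_subset_slab {m : ℕ} {η : ℝ} {z : (Fin m → E) × (Fin m → ℝ)} {p : E}
    (hp : p ∈ near η z) : near η z ⊆ slab z.1 p (2 * η) := by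
  intro s hs i
  have h1 : dist (z.2 i) (meas z.1 p i) ≤ η := (dist_le_pi_dist _ _ i).trans hp
  have h2 : dist (z.2 i) (meas z.1 s i) ≤ η := (dist_le_pi_dist _ _ i).trans hs
  rw [inner_sub_right]
  simp only [meas, Real.dist_eq, abs_le] at h1 h2 ⊢
  constructor <;> linarith [h1.1, h1.2, h2.1, h2.2]

lemma measurable_slab_measure₂ (m : ℕ) (a : ℝ) (ν : Measure E) [SFinite ν] :
    Measurable fun q : (Fin m → E) × E => ν (slab q.1 q.2 a) := by
  have h : MeasurableSet {w : ((Fin m → E) × E) × E | w.2 ∈ slab w.1.1 w.1.2 a} := by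
    have hm : Measurable fun w : ((Fin m → E) × E) × E => (w.1.2, w.1.1, w.2) := by fun_prop
    exact hm (isClosed_slab_set m a).measurableSet
  exact measurable_measure_prodMk_left h

lemma smooth_moment (m n : ℕ) (ν : Measure E) [IsFiniteMeasure ν] {η : ℝ} (hη : 0 < η) (D : ℝ≥0∞)
    (hD : ∀ᵐ p ∂ν, ∀ W : Submodule ℝ E, Module.finrank ℝ W ≤ n →
      ∫⁻ s, (‖Wᗮ.starProjection (s - p)‖ₑ⁻¹) ^ m ∂ν ≤ D) :
    ∫⁻ z, ν (near η z) ^ (n + 1) ∂refm E m ≤
      ENNReal.ofReal (2 * η) ^ m * (ν univ * (ENNReal.ofReal (2 * η) ^ m * D) ^ n) := by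
  have hG : Measurable fun q : (Fin m → E) × E => ν (slab q.1 q.2 (2 * η)) ^ n :=
    (measurable_slab_measure₂ m _ ν).pow_const n
  rw [lintegral_prod _ ((measurable_near_measure m η ν).pow_const _).aemeasurable]
  have h1 : ∀ X : Fin m → E, ∫⁻ y, ν (near η (X, y)) ^ (n + 1) ≤
      ∫⁻ p, ENNReal.ofReal (2 * η) ^ m * ν (slab X p (2 * η)) ^ n ∂ν := by
    intro X
    let F : (Fin m → ℝ) → E → ℝ≥0∞ := fun y p =>
      (near η (X, y)).indicator (fun p => ν (slab X p (2 * η)) ^ n) p
    have hm : Measurable fun w : (Fin m → ℝ) × E => ((X, w.1), w.2) := by fun_prop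
    have hFm : Measurable (Function.uncurry F) := by
      have : Function.uncurry F = {w : (Fin m → ℝ) × E | w.2 ∈ near η (X, w.1)}.indicator
          (fun w => ν (slab X w.2 (2 * η)) ^ n) := by
        ext ⟨y, p⟩; rfl
      rw [this]
      exact (hG.comp (measurable_prodMk_left.comp measurable_snd)).indicator
        (hm (measurableSet_near_set m η))
    calc ∫⁻ y, ν (near η (X, y)) ^ (n + 1) ≤ ∫⁻ y, ∫⁻ p, F y p ∂ν := by
          refine lintegral_mono fun y => ?_
          have hn : MeasurableSet (near η (X, y)) :=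
            measurable_prodMk_left (x := (X, y)) (measurableSet_near_set m η)
          dsimp only
          rw [pow_succ, ← lintegral_indicator_const hn]
          refine lintegral_mono fun p => ?_
          by_cases hp : p ∈ near η (X, y)
          · simp only [F, indicator_of_mem hp]
            gcongr
            exact near_subset_slab hp
          · simp [indicator_of_notMem hp]
      _ = ∫⁻ p, ∫⁻ y, F y p ∂volume ∂ν := lintegral_lintegral_swap hFm.aemeasurable
      _ = _ := by
          refine lintegral_congr fun p => ?_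
          have : (fun y => F y p) = (closedBall (meas X p) η).indicator
              (fun _ => ν (slab X p (2 * η)) ^ n) := by
            ext y; rfl
          rw [this, lintegral_indicator_const measurableSet_closedBall,
            volume_closedBall_pi m _ hη.le, mul_comm]
  refine (lintegral_mono h1).trans ?_
  rw [lintegral_lintegral_swap (hG.const_mul _).aemeasurable]
  calc ∫⁻ p, ∫⁻ X, ENNReal.ofReal (2 * η) ^ m * ν (slab X p (2 * η)) ^ n ∂gm E m ∂ν
      ≤ ∫⁻ _, ENNReal.ofReal (2 * η) ^ m * (ENNReal.ofReal (2 * η) ^ m * D) ^ n ∂ν := by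
        refine lintegral_mono_ae ?_
        filter_upwards [hD] with p hp
        rw [lintegral_const_mul _ ((measurable_slab_measure m p _ ν).pow_const n)]
        gcongr
        exact moment_le' m n ν p (by positivity) D hp
    _ = _ := by rw [lintegral_const]; ring

lemma le_add_pow_mul (x c : ℝ≥0∞) (hc0 : c ≠ 0) (hc : c ≠ ∞) (n : ℕ) :
    x ≤ c + c⁻¹ ^ n * x ^ (n + 1) := by
  rcases le_total x c with h | h
  · exact h.trans le_self_add
  · refine le_trans ?_ le_add_self
    have h1 : 1 ≤ c⁻¹ * x := by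
      rw [← ENNReal.inv_mul_cancel hc0 hc]; gcongr
    calc x = 1 * x := (one_mul x).symm
      _ ≤ (c⁻¹ * x) ^ n * x := by gcongr; exact one_le_pow₀ h1
      _ = _ := by rw [mul_pow]; ring

lemma obs_le_cthickening (m n : ℕ) (ν : Measure E) [IsFiniteMeasure ν] {lam θ : ℝ≥0∞}
    (hl0 : lam ≠ 0) (hl : lam ≠ ∞)
    (hD : ∀ᵐ p ∂ν, ∀ W : Submodule ℝ E, Module.finrank ℝ W ≤ n →
      ∫⁻ s, (‖Wᗮ.starProjection (s - p)‖ₑ⁻¹) ^ m ∂ν ≤ θ * lam)
    {A : Set ((Fin m → E) × (Fin m → ℝ))} (hA : MeasurableSet A) {η : ℝ} (hη : 0 < η) :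
    (gm E m).prod ν (obs ⁻¹' A) ≤ lam * refm E m (cthickening η A) + ν univ * θ ^ n := by
  set κ := ENNReal.ofReal (2 * η) ^ m with hκ
  have hκ0 : κ ≠ 0 := pow_ne_zero _ (by simpa using hη)
  have hκt : κ ≠ ∞ := ENNReal.pow_ne_top ENNReal.ofReal_ne_top
  have hc0 : κ * lam ≠ 0 := mul_ne_zero hκ0 hl0
  have hct : κ * lam ≠ ∞ := ENNReal.mul_ne_top hκt hl
  have h1 := smooth_lower m ν hA hη.le
  have h2 := smooth_moment m n ν hη _ hD
  rw [← hκ] at h1 h2
  have h3 : ∫⁻ z in cthickening η A, ν (near η z) ∂refm E m ≤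
      κ * (lam * refm E m (cthickening η A) + ν univ * θ ^ n) := by
    calc ∫⁻ z in cthickening η A, ν (near η z) ∂refm E m
        ≤ ∫⁻ z in cthickening η A, (κ * lam + (κ * lam)⁻¹ ^ n * ν (near η z) ^ (n + 1))
            ∂refm E m := lintegral_mono fun z => le_add_pow_mul _ _ hc0 hct n
      _ = κ * lam * refm E m (cthickening η A) +
            (κ * lam)⁻¹ ^ n * ∫⁻ z in cthickening η A, ν (near η z) ^ (n + 1) ∂refm E m := by
          rw [lintegral_add_left measurable_const, setLIntegral_const,
            lintegral_const_mul _ ((measurable_near_measure m η ν).pow_const _)]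
      _ ≤ κ * lam * refm E m (cthickening η A) +
            (κ * lam)⁻¹ ^ n * (κ * (ν univ * (κ * (θ * lam)) ^ n)) := by
          gcongr
          exact (setLIntegral_le_lintegral _ _).trans h2
      _ = _ := by
          have : (κ * lam)⁻¹ ^ n * (κ * (θ * lam)) ^ n = θ ^ n := by
            rw [← mul_pow]
            congr 1
            calc (κ * lam)⁻¹ * (κ * (θ * lam)) = ((κ * lam)⁻¹ * (κ * lam)) * θ := by ring
              _ = θ := by rw [ENNReal.inv_mul_cancel hc0 hct, one_mul]
          rw [← this]; ring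
  exact (ENNReal.mul_le_mul_iff_right hκ0 hκt).1 (h1.trans h3)

/-- The law of the observation is dominated by a multiple of the reference measure, up to a small
additive error. -/
lemma obs_le (m n : ℕ) (ν : Measure E) [IsFiniteMeasure ν] {lam θ : ℝ≥0∞}
    (hl0 : lam ≠ 0) (hl : lam ≠ ∞)
    (hD : ∀ᵐ p ∂ν, ∀ W : Submodule ℝ E, Module.finrank ℝ W ≤ n →
      ∫⁻ s, (‖Wᗮ.starProjection (s - p)‖ₑ⁻¹) ^ m ∂ν ≤ θ * lam)
    {A : Set ((Fin m → E) × (Fin m → ℝ))} (hA : MeasurableSet A) :
    (gm E m).prod ν (obs ⁻¹' A) ≤ lam * refm E m A + ν univ * θ ^ n := by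
  have : ProperSpace E := FiniteDimensional.proper_real E
  rw [← Measure.map_apply (measurable_obs m) hA,
    hA.measure_eq_iSup_isCompact_of_ne_top (measure_ne_top _ _)]
  refine iSup_le fun K => iSup_le fun hKA => iSup_le fun hK => ?_
  rw [Measure.map_apply (measurable_obs m) hK.measurableSet]
  have ht : Tendsto (fun η : ℝ => lam * refm E m (cthickening η K) + ν univ * θ ^ n) (𝓝[>] 0)
      (𝓝 (lam * refm E m K + ν univ * θ ^ n)) := by
    refine Tendsto.add_const _ (ENNReal.Tendsto.const_mul ?_ (Or.inr hl))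
    exact (tendsto_measure_cthickening_of_isCompact hK).mono_left nhdsWithin_le_nhds
  have h1 : (gm E m).prod ν (obs ⁻¹' K) ≤ lam * refm E m K + ν univ * θ ^ n := by
    refine ge_of_tendsto ht ?_
    filter_upwards [self_mem_nhdsWithin] with η hη
    exact obs_le_cthickening m n ν hl0 hl hD hK.measurableSet hη
  refine h1.trans ?_
  gcongr

end Crest.Agent.R322
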