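import Mathlib
import Crest.Agent.R322.Smooth

set_option autoImplicit false

open MeasureTheory ProbabilityTheory Set Metric Filter Topology
open scoped ENNReal NNReal RealInnerProductSpace

namespace Crest.Agent.R322

variable {E : Type*} [NormedAddCommGroup E] [InnerProductSpace ℝ E] [FiniteDimensional ℝ E]
  [MeasurableSpace E] [BorelSpace E]

omit [MeasurableSpace E] [BorelSpace E] in
/-- Hadamard-type bound for the volume of the image of a ball. -/
lemma volume_image_ball_le {m : ℕ} (X : Fin m → E) (r : ℝ) :
    volume (meas X '' closedBall 0 r) ≤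
      ENNReal.ofReal (∏ i, ‖X i‖) * volume (closedBall (0 : EuclideanSpace ℝ (Fin m)) r) := by
  classical
  by_cases hX : LinearIndependent ℝ X
  · let U : Submodule ℝ E := Submodule.span ℝ (range X)
    have hU : Module.finrank ℝ U = Fintype.card (Fin m) := finrank_span_eq_card hX
    let f : Fin m → U := fun i => ⟨X i, Submodule.subset_span (mem_range_self i)⟩
    let b := InnerProductSpace.gramSchmidtOrthonormalBasis hU f
    have hdet : b.toBasis.det f = ∏ i, ⟪b i, f i⟫ :=
      InnerProductSpace.gramSchmidtOrthonormalBasis_det hU f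
    let M : Matrix (Fin m) (Fin m) ℝ := (b.toBasis.toMatrix f).transpose
    have hM : |M.det| ≤ ∏ i, ‖X i‖ := by
      rw [Matrix.det_transpose, ← Module.Basis.det_apply, hdet, Finset.abs_prod]
      refine Finset.prod_le_prod (fun i _ => abs_nonneg _) fun i _ => ?_
      refine (abs_real_inner_le_norm _ _).trans ?_
      rw [b.orthonormal.1 i, one_mul]
      rfl
    let B : Set (Fin m → ℝ) := (WithLp.toLp 2) ⁻¹' closedBall (0 : EuclideanSpace ℝ (Fin m)) r
    have hB : volume B = volume (closedBall (0 : EuclideanSpace ℝ (Fin m)) r) :=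
      (PiLp.volume_preserving_toLp (Fin m)).measure_preimage
        measurableSet_closedBall.nullMeasurableSet
    have hsub : meas X '' closedBall 0 r ⊆ Matrix.toLin' M '' B := by
      rintro _ ⟨u, hu, rfl⟩
      refine ⟨(b.repr (U.orthogonalProjectionOnto u)).ofLp, ?_, ?_⟩
      · simp only [B, mem_preimage, WithLp.toLp_ofLp, mem_closedBall, dist_zero_right,
          LinearIsometryEquiv.norm_map]
        refine (U.norm_orthogonalProjectionOnto_apply_le u).trans ?_
        simpa using hu
      · ext i
        have h1 : meas X u i = ⟪f i, U.orthogonalProjectionOnto u⟫ := by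
          rw [Submodule.inner_orthogonalProjectionOnto_eq_of_mem_left]
          rfl
        rw [h1, ← b.sum_inner_mul_inner]
        simp only [M, Matrix.toLin'_apply, Matrix.mulVec, dotProduct, Matrix.transpose_apply,
          Module.Basis.toMatrix_apply, OrthonormalBasis.coe_toBasis_repr_apply,
          OrthonormalBasis.repr_apply_apply]
        refine Finset.sum_congr rfl fun j _ => ?_
        rw [real_inner_comm (f i) (b j)]
    refine (measure_mono hsub).trans ?_
    rw [Measure.addHaar_image_linearMap, hB, LinearMap.det_toLin']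
    gcongr
  · rw [Fintype.not_linearIndependent_iff] at hX
    obtain ⟨c, hc, i, hi⟩ := hX
    let L : (Fin m → ℝ) →ₗ[ℝ] ℝ := ∑ j, c j • LinearMap.proj j
    have hL : LinearMap.ker L ≠ ⊤ := by
      intro h
      have : Pi.single i (1 : ℝ) ∈ LinearMap.ker L := h ▸ Submodule.mem_top
      simp only [L, LinearMap.mem_ker, LinearMap.coe_sum, Finset.sum_apply, LinearMap.smul_apply,
        LinearMap.proj_apply, smul_eq_mul, Pi.single_apply, mul_ite, mul_one, mul_zero,
        Finset.sum_ite_eq', Finset.mem_univ, if_true] at this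
      exact hi this
    have hsub : meas X '' closedBall 0 r ⊆ LinearMap.ker L := by
      rintro _ ⟨u, -, rfl⟩
      have : ⟪∑ j, c j • X j, u⟫ = 0 := by rw [hc, inner_zero_left]
      simpa [L, meas, sum_inner, inner_smul_left] using this
    refine (measure_mono hsub).trans ?_
    rw [Measure.addHaar_submodule volume _ hL]
    exact zero_le

/-- the pairs (rows, values) that can be produced by a signal in a ball -/
def region (m : ℕ) (x₀ : E) (r : ℝ) : Set ((Fin m → E) × (Fin m → ℝ)) :=
  {z | ∃ s ∈ closedBall x₀ r, z.2 = meas z.1 s}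

omit [MeasurableSpace E] [BorelSpace E] in
lemma isClosed_region (m : ℕ) (x₀ : E) (r : ℝ) : IsClosed (region m x₀ r) := by
  have : ProperSpace E := FiniteDimensional.proper_real E
  have : CompactSpace (closedBall x₀ r) := isCompact_iff_compactSpace.1 (isCompact_closedBall _ _)
  have h : region m x₀ r = Prod.snd ''
      {w : closedBall x₀ r × ((Fin m → E) × (Fin m → ℝ)) | w.2.2 = meas w.2.1 w.1} := by
    ext z
    simp only [region, mem_ofPred_eq, mem_image, Prod.exists, Subtype.exists]
    constructor
    · rintro ⟨s, hs, h⟩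
      exact ⟨s, hs, z.1, z.2, h, rfl⟩
    · rintro ⟨s, hs, X, y, h, rfl⟩
      exact ⟨s, hs, h⟩
  rw [h]
  refine isClosedMap_snd_of_compactSpace _ (isClosed_eq (by fun_prop) ?_)
  unfold meas
  fun_prop

lemma integral_norm_sq_stdG : ∫ x, ‖x‖ ^ 2 ∂stdGaussian E = Module.finrank ℝ E := by
  let b := stdOrthonormalBasis ℝ E
  simp_rw [← b.sum_sq_inner_right]
  have h : ∀ i, MemLp (fun x : E => ⟪b i, x⟫) 2 (stdGaussian E) := fun i =>
    IsGaussian.memLp_dual (stdGaussian E) (innerSL ℝ (b i)) 2 (by simp)
  rw [integral_finsetSum _ fun i _ => (h i).integrable_sq]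
  have h2 : ∀ i, ∫ x, ⟪b i, x⟫ ^ 2 ∂stdGaussian E = 1 := by
    intro i
    rw [← variance_of_integral_eq_zero (h i).aemeasurable
      (integral_strongDual_stdGaussian (innerSL ℝ (b i)))]
    have := variance_dual_stdGaussian (innerSL ℝ (b i))
    rw [innerSL_apply_norm, b.orthonormal.1 i] at this
    simpa using this
  simp [h2]

lemma integral_norm_stdG_sq_le : (∫ x, ‖x‖ ∂stdGaussian E) ^ 2 ≤ Module.finrank ℝ E := by
  have h : MemLp (fun x : E => ‖x‖) 2 (stdGaussian E) := IsGaussian.memLp_two_id.norm
  have h1 := variance_nonneg (fun x : E => ‖x‖) (stdGaussian E)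
  rw [variance_eq_sub h] at h1
  have h2 := integral_norm_sq_stdG (E := E)
  simp only [Pi.pow_apply] at h1
  linarith

lemma refm_region_le {n : ℕ} (hn : 0 < n) (x₀ : E) (r : ℝ) :
    refm E (2 * n) (region (2 * n) x₀ r) ≤
      ENNReal.ofReal ((Module.finrank ℝ E : ℝ) ^ n * (Real.pi ^ n / n.factorial)) *
        ENNReal.ofReal r ^ (2 * n) := by
  have hR := (isClosed_region (2 * n) x₀ r).measurableSet
  rw [Measure.prod_apply hR]
  have : Nontrivial (EuclideanSpace ℝ (Fin (2 * n))) :=
    Module.nontrivial_of_finrank_pos (R := ℝ) (by simpa using hn)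
  have hvol : volume (closedBall (0 : EuclideanSpace ℝ (Fin (2 * n))) r) =
      ENNReal.ofReal r ^ (2 * n) * ENNReal.ofReal (Real.pi ^ n / n.factorial) := by
    rw [InnerProductSpace.volume_closedBall_of_dim_even (k := n) (by simp)]
    simp
  have h1 : ∀ X : Fin (2 * n) → E, volume (Prod.mk X ⁻¹' region (2 * n) x₀ r) ≤
      ENNReal.ofReal (∏ i, ‖X i‖) *
        (ENNReal.ofReal r ^ (2 * n) * ENNReal.ofReal (Real.pi ^ n / n.factorial)) := by
    intro X
    rw [← hvol]
    refine le_trans ?_ (volume_image_ball_le X r)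
    rw [← measure_preimage_add volume (-meas X x₀) (meas X '' closedBall 0 r)]
    refine measure_mono ?_
    rintro y ⟨s, hs, h⟩
    refine ⟨s - x₀, by simpa [dist_eq_norm] using hs, ?_⟩
    simp only at h
    ext i
    simp [h, meas, inner_sub_right]
    ring
  refine (lintegral_mono h1).trans ?_
  have hint : Integrable (fun x : E => ‖x‖) (stdGaussian E) := IsGaussian.integrable_id.norm
  rw [lintegral_mul_const _ (by fun_prop), ← ofReal_integral_eq_lintegral_ofReal
    (Integrable.fintype_prod (f := fun _ x => ‖x‖) fun _ => hint)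
    (Eventually.of_forall fun X => by positivity),
    integral_fintype_prod_eq_pow (fun x : E => ‖x‖), Fintype.card_fin, pow_mul,
    ENNReal.ofReal_mul (by positivity)]
  calc _ ≤ ENNReal.ofReal ((Module.finrank ℝ E : ℝ) ^ n) *
        (ENNReal.ofReal r ^ (2 * n) * ENNReal.ofReal (Real.pi ^ n / n.factorial)) := by
        gcongr
        exact integral_norm_stdG_sq_le
    _ = _ := by ring

end Crest.Agent.R322
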