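import Mathlib

set_option autoImplicit false

open MeasureTheory ProbabilityTheory Set Metric
open scoped ENNReal NNReal RealInnerProductSpace

namespace Crest.Agent.R322

variable {E : Type*} [NormedAddCommGroup E] [InnerProductSpace ℝ E] [FiniteDimensional ℝ E]
  [MeasurableSpace E] [BorelSpace E]

/-- Frostman-type growth bound. -/
def Frost (ν : Measure E) (α : ℕ) (N : ℝ≥0∞) : Prop :=
  ∀ (z : E) (ρ : ℝ), 0 < ρ → ν (closedBall z ρ) ≤ N * ENNReal.ofReal ρ ^ α

/-- The tube of width `δ` and length `R` around `p + W`. -/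
def tube (W : Submodule ℝ E) (p : E) (R δ : ℝ) : Set E :=
  {s | ‖s - p‖ ≤ R ∧ ‖Wᗮ.starProjection (s - p)‖ ≤ δ}

lemma measurableSet_tube (W : Submodule ℝ E) (p : E) (R δ : ℝ) : MeasurableSet (tube W p R δ) := by
  have h1 : IsClosed {s : E | ‖s - p‖ ≤ R} := isClosed_le (by fun_prop) continuous_const
  have h2 : IsClosed {s : E | ‖Wᗮ.starProjection (s - p)‖ ≤ δ} :=
    isClosed_le (by fun_prop) continuous_const
  exact (h1.inter h2).measurableSet

lemma tube_le (ν : Measure E) [SFinite ν] {α : ℕ} {N : ℝ≥0∞} (hν : Frost ν α N)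
    (W : Submodule ℝ E) (p : E) {R δ : ℝ} (hR : 0 ≤ R) (hδ : 0 < δ) :
    ν (tube W p R δ) ≤ ENNReal.ofReal ((R + δ) / δ) ^ Module.finrank ℝ W *
      (N * ENNReal.ofReal (2 * δ) ^ α) := by
  let μ : Measure W := volume
  let S : Set (E × W) := {q | q.2 ∈ closedBall (0 : W) (R + δ) ∧ q.1 ∈ closedBall (p + q.2) (2 * δ)}
  have hS : MeasurableSet S := by
    refine IsClosed.measurableSet (IsClosed.inter ?_ ?_)
    · exact isClosed_closedBall.preimage continuous_snd
    · exact isClosed_le (f := fun q : E × W => dist q.1 (p + q.2)) (by fun_prop) continuous_const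
  have h1 : ν (tube W p R δ) * μ (closedBall 0 δ) ≤ ν.prod μ S := by
    rw [Measure.prod_apply hS, mul_comm, ← lintegral_indicator_const (measurableSet_tube W p R δ)]
    refine lintegral_mono fun s => ?_
    by_cases hs : s ∈ tube W p R δ
    · rw [indicator_of_mem hs, ← Measure.addHaar_closedBall_center μ
        (W.orthogonalProjectionOnto (s - p)) δ]
      refine measure_mono fun z hz => ?_
      have hz' : ‖z - W.orthogonalProjectionOnto (s - p)‖ ≤ δ := by
        simpa [dist_eq_norm] using hz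
      have hn : ‖W.orthogonalProjectionOnto (s - p)‖ ≤ R :=
        (W.norm_orthogonalProjectionOnto_apply_le _).trans hs.1
      refine ⟨?_, ?_⟩
      · simp only [mem_closedBall, dist_zero_right]
        calc ‖z‖ = ‖W.orthogonalProjectionOnto (s - p) +
              (z - W.orthogonalProjectionOnto (s - p))‖ := by congr 1; abel
          _ ≤ _ := norm_add_le _ _
          _ ≤ R + δ := add_le_add hn hz'
      · simp only [mem_closedBall, dist_eq_norm]
        have hz'' : ‖(z : E) - W.starProjection (s - p)‖ ≤ δ := by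
          rw [Submodule.starProjection_apply, ← Submodule.coe_sub]
          exact hz'
        have h2 := hs.2
        rw [Submodule.starProjection_orthogonal_val] at h2
        calc ‖s - (p + z)‖ = ‖(s - p - W.starProjection (s - p)) -
              ((z : E) - W.starProjection (s - p))‖ := by congr 1; abel
          _ ≤ _ := norm_sub_le _ _
          _ ≤ δ + δ := add_le_add h2 hz''
          _ = 2 * δ := by ring
    · simp [indicator_of_notMem hs]
  have h2 : ν.prod μ S ≤ (N * ENNReal.ofReal (2 * δ) ^ α) * μ (closedBall 0 (R + δ)) := by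
    rw [Measure.prod_apply_symm hS, ← lintegral_indicator_const measurableSet_closedBall]
    refine lintegral_mono fun z => ?_
    by_cases hz : z ∈ closedBall (0 : W) (R + δ)
    · rw [indicator_of_mem hz]
      exact le_trans (measure_mono fun s hs => hs.2) (hν (p + z) (2 * δ) (by positivity))
    · have : (fun s : E => (s, z)) ⁻¹' S = ∅ := by
        ext s; simp only [S, mem_preimage, mem_ofPred_eq, hz, false_and, mem_empty_iff_false]
      simp [this]
  have h3 : μ (closedBall 0 (R + δ)) =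
      ENNReal.ofReal ((R + δ) / δ) ^ Module.finrank ℝ W * μ (closedBall 0 δ) := by
    have := Measure.addHaar_closedBall_mul_of_pos μ (0 : W) (r := (R + δ) / δ) (by positivity) δ
    rw [div_mul_cancel₀ _ hδ.ne'] at this
    rw [this, ENNReal.ofReal_pow (by positivity)]
  have hpos : μ (closedBall 0 δ) ≠ 0 := (measure_closedBall_pos μ 0 hδ).ne'
  have hfin : μ (closedBall 0 δ) ≠ ∞ := measure_closedBall_lt_top.ne
  have h4 := h1.trans h2
  rw [h3, ← mul_assoc] at h4
  rw [mul_comm]
  exact (ENNReal.mul_le_mul_iff_left hpos hfin).1 h4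

/-- Dyadic pointwise bound for negative powers. -/
lemma inv_pow_le_tsum {t r : ℝ} (ht0 : 0 ≤ t) (hr : 0 < r) (ht : t ≤ 2 * r) (m : ℕ) :
    (ENNReal.ofReal t)⁻¹ ^ m ≤
      ∑' j : ℕ, if t ≤ 2 * r / 2 ^ j then ENNReal.ofReal (2 ^ j / r) ^ m else 0 := by
  rcases ht0.eq_or_lt with rfl | ht0
  · have h : ∀ j : ℕ, ENNReal.ofReal (1 / r) ^ m ≤
        if (0 : ℝ) ≤ 2 * r / 2 ^ j then ENNReal.ofReal (2 ^ j / r) ^ m else 0 := by
      intro j
      rw [if_pos (by positivity)]
      gcongr
      exact one_le_pow₀ (by norm_num)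
    refine le_trans ?_ (ENNReal.tsum_le_tsum h)
    rw [ENNReal.tsum_const_eq_top_of_ne_zero]
    · exact le_top
    · have : 0 < 1 / r := by positivity
      simpa using fun h => absurd h (by simpa using hr)
  · -- the largest `j` with `t ≤ 2 r / 2 ^ j`
    have hex : ∃ j : ℕ, r / 2 ^ j < t := by
      obtain ⟨j, hj⟩ := pow_unbounded_of_one_lt (r / t) (by norm_num : (1 : ℝ) < 2)
      refine ⟨j, ?_⟩
      rw [div_lt_iff₀ (by positivity)]
      rw [div_lt_iff₀ ht0] at hj
      linarith
    classical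
    let j := Nat.find hex
    have hj1 : r / 2 ^ j < t := Nat.find_spec hex
    have hj2 : t ≤ 2 * r / 2 ^ j := by
      rcases Nat.eq_zero_or_pos j with h0 | hpos
      · rw [h0]; simpa using ht
      · have := Nat.find_min hex (m := j - 1) (by omega)
        push Not at this
        have h2 : (2 : ℝ) ^ j = 2 * 2 ^ (j - 1) := by
          rw [← pow_succ']; congr 1; omega
        rw [h2, mul_div_mul_left _ _ (by norm_num)]
        exact this
    refine le_trans ?_ (ENNReal.le_tsum j)
    rw [if_pos hj2]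
    gcongr
    rw [← ENNReal.ofReal_inv_of_pos ht0]
    apply ENNReal.ofReal_le_ofReal
    rw [inv_le_comm₀ ht0 (by positivity), inv_div]
    exact hj1.le

/-- Negative moments of the distance to a flat, for a Frostman measure carried by a ball. -/
lemma lintegral_inv_dist_le (ν : Measure E) [SFinite ν] {m β k : ℕ} (hβ : k + 1 ≤ β) {N : ℝ≥0∞}
    (hν : Frost ν (m + β) N) (p : E) {r : ℝ} (hr : 0 < r) (hsupp : ∀ᵐ s ∂ν, ‖s - p‖ ≤ 2 * r)
    (W : Submodule ℝ E) (hW : Module.finrank ℝ W ≤ k) :
    ∫⁻ s, (‖Wᗮ.starProjection (s - p)‖ₑ⁻¹) ^ m ∂ν ≤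
      2 ^ (k + 1) * 4 ^ (m + β) * (N * ENNReal.ofReal r ^ β) := by
  have h1 : ∫⁻ s, (‖Wᗮ.starProjection (s - p)‖ₑ⁻¹) ^ m ∂ν ≤
      ∫⁻ s, ∑' j : ℕ, (tube W p (2 * r) (2 * r / 2 ^ j)).indicator
        (fun _ => ENNReal.ofReal (2 ^ j / r) ^ m) s ∂ν := by
    refine lintegral_mono_ae ?_
    filter_upwards [hsupp] with s hs
    have ht : ‖Wᗮ.starProjection (s - p)‖ ≤ 2 * r :=
      (Wᗮ.norm_starProjection_apply_le _).trans hs
    have := inv_pow_le_tsum (norm_nonneg _) hr ht m
    rw [ofReal_norm] at this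
    refine this.trans (le_of_eq ?_)
    congr 1 with j
    simp only [indicator, tube, mem_ofPred_eq, hs, true_and]
  refine h1.trans ?_
  rw [lintegral_tsum fun j =>
    (measurable_const.indicator (measurableSet_tube W p _ _)).aemeasurable]
  have h2 : ∀ j : ℕ, ∫⁻ s, (tube W p (2 * r) (2 * r / 2 ^ j)).indicator
      (fun _ => ENNReal.ofReal (2 ^ j / r) ^ m) s ∂ν ≤
      (2 ^ k * 4 ^ (m + β) * (N * ENNReal.ofReal r ^ β)) * (2⁻¹ : ℝ≥0∞) ^ j := by
    intro j
    rw [lintegral_indicator_const (measurableSet_tube W p _ _)]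
    have h3 := tube_le ν hν W p (R := 2 * r) (δ := 2 * r / 2 ^ j) (by positivity) (by positivity)
    have h4 : ENNReal.ofReal ((2 * r + 2 * r / 2 ^ j) / (2 * r / 2 ^ j)) ^ Module.finrank ℝ W ≤
        ENNReal.ofReal (2 * 2 ^ j) ^ k := by
      have e : (2 * r + 2 * r / 2 ^ j) / (2 * r / 2 ^ j) = 2 ^ j + 1 := by
        field_simp
      have h2j : (1 : ℝ) ≤ 2 ^ j := one_le_pow₀ (by norm_num)
      rw [e]
      calc ENNReal.ofReal (2 ^ j + 1) ^ Module.finrank ℝ W
          ≤ ENNReal.ofReal (2 * 2 ^ j) ^ Module.finrank ℝ W := by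
            gcongr; linarith
        _ ≤ _ := by
            apply pow_le_pow_right₀ _ hW
            rw [ENNReal.one_le_ofReal]; linarith
    have key : (2 ^ j / r) ^ m * ((2 * 2 ^ j) ^ k * (2 * (2 * r / 2 ^ j)) ^ (m + β)) ≤
        2 ^ k * 4 ^ (m + β) * r ^ β * (2⁻¹ : ℝ) ^ j := by
      obtain ⟨e, rfl⟩ := Nat.exists_eq_add_of_le hβ
      have h2j : (1 : ℝ) ≤ 2 ^ j := one_le_pow₀ (by norm_num)
      set x : ℝ := 2 ^ j with hx
      have hx0 : 0 < x := by positivity
      have e1 : (x / r) ^ m * ((2 * x) ^ k * (2 * (2 * r / x)) ^ (m + (k + 1 + e))) =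
          2 ^ k * 4 ^ (m + (k + 1 + e)) * r ^ (k + 1 + e) * (x⁻¹ * (x⁻¹) ^ e) := by
        have : 2 * (2 * r / x) = 4 * r * x⁻¹ := by ring
        rw [this]
        simp only [mul_pow, pow_add, div_pow, inv_pow]
        field_simp
      rw [e1, inv_pow 2 j, ← hx]
      gcongr
      apply mul_le_of_le_one_right (by positivity)
      exact pow_le_one₀ (by positivity) (inv_le_one_of_one_le₀ h2j)
    calc ENNReal.ofReal (2 ^ j / r) ^ m * ν (tube W p (2 * r) (2 * r / 2 ^ j))
        ≤ ENNReal.ofReal (2 ^ j / r) ^ m * (ENNReal.ofReal (2 * 2 ^ j) ^ k *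
            (N * ENNReal.ofReal (2 * (2 * r / 2 ^ j)) ^ (m + β))) := by
          gcongr
          exact h3.trans (by gcongr)
      _ = N * ENNReal.ofReal ((2 ^ j / r) ^ m * ((2 * 2 ^ j) ^ k *
            (2 * (2 * r / 2 ^ j)) ^ (m + β))) := by
          rw [ENNReal.ofReal_mul (p := (2 ^ j / r) ^ m) (by positivity),
            ENNReal.ofReal_mul (p := (2 * 2 ^ j) ^ k) (by positivity),
            ENNReal.ofReal_pow (p := 2 ^ j / r) (by positivity),
            ENNReal.ofReal_pow (p := 2 * 2 ^ j) (by positivity),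
            ENNReal.ofReal_pow (p := 2 * (2 * r / 2 ^ j)) (by positivity)]
          ring
      _ ≤ N * ENNReal.ofReal (2 ^ k * 4 ^ (m + β) * r ^ β * (2⁻¹ : ℝ) ^ j) := by gcongr
      _ = _ := by
          rw [ENNReal.ofReal_mul (by positivity), ENNReal.ofReal_mul (by positivity),
            ENNReal.ofReal_mul (by positivity),
            ENNReal.ofReal_pow (by positivity), ENNReal.ofReal_pow (by positivity),
            ENNReal.ofReal_pow (by positivity), ENNReal.ofReal_pow (by positivity),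
            ENNReal.ofReal_inv_of_pos (by norm_num)]
          simp only [ENNReal.ofReal_ofNat]
          ring
  refine (ENNReal.tsum_le_tsum h2).trans (le_of_eq ?_)
  rw [ENNReal.tsum_mul_left, ENNReal.tsum_geometric, ENNReal.one_sub_inv_two, inv_inv]
  ring

end Crest.Agent.R322
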