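import Mathlib
import Crest.Agent.R322.Region
import Crest.Agent.R322.Tube

set_option autoImplicit false

open MeasureTheory ProbabilityTheory Set Metric Filter Topology
open scoped ENNReal NNReal RealInnerProductSpace

namespace Crest.Agent.R322

variable {E : Type*} [NormedAddCommGroup E] [InnerProductSpace ℝ E] [FiniteDimensional ℝ E]
  [MeasurableSpace E] [BorelSpace E]

variable (E) in
/-- the loss in the Frostman constant caused by one block of `2 n` samples -/
noncomputable def blockConst (n : ℕ) (Γ : ℝ≥0∞) : ℝ≥0∞ :=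
  Γ * (2 ^ (n + 1) * 4 ^ (2 * n + 2 * n)) *
    ENNReal.ofReal ((Module.finrank ℝ E : ℝ) ^ n * (Real.pi ^ n / n.factorial)) + 1

lemma block_frost {Q : Type*} [MeasurableSpace Q] [MeasurableSingletonClass Q] {n : ℕ}
    (hn : 0 < n) (f : (Fin (2 * n) → E) × (Fin (2 * n) → ℝ) → Q) (hf : Measurable f)
    (W : Finset Q) (hW : ∀ z, f z ∈ W) {Γ : ℝ≥0∞} (hΓ0 : Γ ≠ 0) (hΓ : Γ ≠ ∞)
    (hcard : (W.card : ℝ≥0∞) ≤ Γ ^ n) (σ : Measure E) [SFinite σ] (h : Q → E → ℝ≥0∞)
    (hh : ∀ w, Measurable (h w)) {N : ℝ≥0∞} (hN0 : N ≠ 0) (hN : N ≠ ∞)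
    (hFr : ∀ w, Frost (σ.withDensity (h w)) (2 * n + 2 * n) N) :
    Frost (σ.withDensity fun s => ∫⁻ X, h (f (obs (X, s))) s ∂gm E (2 * n)) (2 * n + 2 * n)
      (blockConst E n Γ * N) := by
  classical
  intro x₀ r hr
  set B := closedBall x₀ r with hB
  have hBm : MeasurableSet B := measurableSet_closedBall
  set R := region (2 * n) x₀ r with hR
  have hRm : MeasurableSet R := (isClosed_region (2 * n) x₀ r).measurableSet
  let ν : Q → Measure E := fun w => (σ.withDensity (h w)).restrict B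
  have hνu : ∀ w, ν w univ ≤ N * ENNReal.ofReal r ^ (2 * n + 2 * n) := by
    intro w
    simp only [ν, Measure.restrict_apply_univ]
    exact hFr w x₀ r hr
  have hνfin : ∀ w, IsFiniteMeasure (ν w) := fun w =>
    ⟨(hνu w).trans_lt (ENNReal.mul_lt_top hN.lt_top
      (ENNReal.pow_lt_top ENNReal.ofReal_lt_top))⟩
  have hνFr : ∀ w, Frost (ν w) (2 * n + 2 * n) N := fun w z ρ hρ =>
    (Measure.restrict_le_self _).trans (hFr w z ρ hρ)
  let S : Q → Set ((Fin (2 * n) → E) × (Fin (2 * n) → ℝ)) := fun w => f ⁻¹' {w} ∩ R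
  have hS : ∀ w, MeasurableSet (S w) := fun w => (hf (measurableSet_singleton w)).inter hRm
  have hsec : ∀ w, Measurable fun s : E => gm E (2 * n) ((fun X => (X, s)) ⁻¹' (obs ⁻¹' S w)) :=
    fun w => measurable_measure_prodMk_right (measurable_obs _ (hS w))
  have h1 : ∀ s ∈ B, ∫⁻ X, h (f (obs (X, s))) s ∂gm E (2 * n) =
      ∑ w ∈ W, h w s * gm E (2 * n) ((fun X => (X, s)) ⁻¹' (obs ⁻¹' S w)) := by
    intro s hs
    have hm : ∀ w, MeasurableSet ((fun X : Fin (2 * n) → E => (X, s)) ⁻¹' (obs ⁻¹' S w)) :=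
      fun w => measurable_prodMk_right (measurable_obs _ (hS w))
    simp_rw [← fun w => lintegral_indicator_const (μ := gm E (2 * n)) (hm w) (h w s)]
    rw [← lintegral_finsetSum _ fun w _ => measurable_const.indicator (hm w)]
    refine lintegral_congr fun X => ?_
    have hXR : obs (X, s) ∈ R := ⟨s, hs, rfl⟩
    rw [Finset.sum_eq_single_of_mem (f (obs (X, s))) (hW _)]
    · rw [indicator_of_mem]
      exact ⟨rfl, hXR⟩
    · intro w _ hw
      rw [indicator_of_notMem]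
      exact fun hc => hw hc.1.symm
  have h2 : ∀ w, ∫⁻ s in B, h w s * gm E (2 * n) ((fun X => (X, s)) ⁻¹' (obs ⁻¹' S w)) ∂σ =
      (gm E (2 * n)).prod (ν w) (obs ⁻¹' S w) := by
    intro w
    have := hνfin w
    rw [Measure.prod_apply_symm (measurable_obs _ (hS w))]
    simp only [ν]
    rw [restrict_withDensity hBm, lintegral_withDensity_eq_lintegral_mul _ (hh w) (hsec w)]
    rfl
  set D₀ : ℝ≥0∞ := 2 ^ (n + 1) * 4 ^ (2 * n + 2 * n) with hD₀
  set lam : ℝ≥0∞ := Γ * (D₀ * (N * ENNReal.ofReal r ^ (2 * n))) with hlam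
  have hr0 : ENNReal.ofReal r ≠ 0 := by simpa using hr
  have hl0 : lam ≠ 0 := by
    simp only [hlam, hD₀]
    positivity
  have hl : lam ≠ ∞ := by
    simp only [hlam, hD₀]
    finiteness
  have hθ : Γ⁻¹ * lam = D₀ * (N * ENNReal.ofReal r ^ (2 * n)) := by
    rw [hlam, ← mul_assoc, ENNReal.inv_mul_cancel hΓ0 hΓ, one_mul]
  have h3 : ∀ w, (gm E (2 * n)).prod (ν w) (obs ⁻¹' S w) ≤
      lam * refm E (2 * n) (S w) + N * ENNReal.ofReal r ^ (2 * n + 2 * n) * Γ⁻¹ ^ n := by
    intro w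
    have := hνfin w
    have hae : ∀ᵐ s ∂ν w, s ∈ B := ae_restrict_mem hBm
    refine (obs_le (2 * n) n (ν w) (θ := Γ⁻¹) hl0 hl ?_ (hS w)).trans ?_
    · filter_upwards [hae] with p hp U hU
      rw [hθ]
      refine lintegral_inv_dist_le (ν w) (by omega) (hνFr w) p hr ?_ U hU
      filter_upwards [hae] with s hs
      rw [← dist_eq_norm]
      have := dist_triangle_right s p x₀
      have h1 : dist s x₀ ≤ r := hs
      have h2 : dist p x₀ ≤ r := hp
      linarith
    · gcongr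
      exact hνu w
  have h4 : ∑ w ∈ W, refm E (2 * n) (S w) ≤ refm E (2 * n) R := by
    have : ∀ w, refm E (2 * n) (S w) = (refm E (2 * n)).restrict R (f ⁻¹' {w}) := fun w =>
      (Measure.restrict_apply (hf (measurableSet_singleton w))).symm
    simp_rw [this]
    rw [sum_measure_preimage_singleton W fun w _ => hf (measurableSet_singleton w)]
    exact (measure_mono (subset_univ _)).trans (by rw [Measure.restrict_apply_univ])
  have h5 : (W.card : ℝ≥0∞) * Γ⁻¹ ^ n ≤ 1 := by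
    calc (W.card : ℝ≥0∞) * Γ⁻¹ ^ n ≤ Γ ^ n * Γ⁻¹ ^ n := by gcongr
      _ = 1 := by rw [← mul_pow, ENNReal.mul_inv_cancel hΓ0 hΓ, one_pow]
  rw [withDensity_apply _ hBm, setLIntegral_congr_fun hBm h1,
    lintegral_finsetSum _ fun w _ => (hh w).fun_mul (hsec w)]
  simp_rw [h2]
  calc ∑ w ∈ W, (gm E (2 * n)).prod (ν w) (obs ⁻¹' S w)
      ≤ ∑ w ∈ W, (lam * refm E (2 * n) (S w) +
          N * ENNReal.ofReal r ^ (2 * n + 2 * n) * Γ⁻¹ ^ n) := Finset.sum_le_sum fun w _ => h3 w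
    _ = lam * ∑ w ∈ W, refm E (2 * n) (S w) +
          N * ENNReal.ofReal r ^ (2 * n + 2 * n) * (W.card * Γ⁻¹ ^ n) := by
        rw [Finset.sum_add_distrib, ← Finset.mul_sum, Finset.sum_const, nsmul_eq_mul]
        ring
    _ ≤ lam * (ENNReal.ofReal ((Module.finrank ℝ E : ℝ) ^ n * (Real.pi ^ n / n.factorial)) *
          ENNReal.ofReal r ^ (2 * n)) + N * ENNReal.ofReal r ^ (2 * n + 2 * n) * 1 := by
        gcongr
        exact h4.trans (refm_region_le hn x₀ r)
    _ = _ := by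
        rw [blockConst, hlam, ← hD₀]
        ring

end Crest.Agent.R322
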