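import Mathlib
import Crest.Agent.R322.Block

set_option autoImplicit false

open MeasureTheory ProbabilityTheory Set Metric Filter Topology
open scoped ENNReal NNReal RealInnerProductSpace

namespace Crest.Agent.R322

section Run

variable {E Q : Type*}

/-- Running `n` steps of a state machine from time `a`. -/
def runFrom (step : ℕ → Q → E → ℝ → Q) : (n : ℕ) → ℕ → Q → (Fin n → E) → (Fin n → ℝ) → Q
  | 0, _, st, _, _ => st
  | n + 1, a, st, xs, ys =>
      runFrom step n (a + 1) (step a st (xs 0) (ys 0)) (Fin.tail xs) (Fin.tail ys)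

lemma foldl_eq_runFrom (step : ℕ → Q → E → ℝ → Q) (n : ℕ) :
    ∀ (a : ℕ) (st : Q) (xs : Fin n → E) (ys : Fin n → ℝ),
      (List.finRange n).foldl (fun q t => step (a + t.val) q (xs t) (ys t)) st =
        runFrom step n a st xs ys := by
  induction n with
  | zero => intro a st xs ys; simp [runFrom]
  | succ n ih =>
    intro a st xs ys
    rw [List.finRange_succ, List.foldl_cons, List.foldl_map, runFrom, ← ih]
    simp only [Fin.val_zero, add_zero, Fin.val_succ, Fin.tail]
    congr 1
    ext q t
    rw [add_assoc, add_comm 1]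

lemma runFrom_of_le (step : ℕ → Q → E → ℝ → Q) {T : ℕ}
    (hT : ∀ t, T ≤ t → ∀ st x y, step t st x y = st) (n : ℕ) :
    ∀ (a : ℕ) (st : Q) (xs : Fin n → E) (ys : Fin n → ℝ), T ≤ a →
      runFrom step n a st xs ys = st := by
  induction n with
  | zero => intro a st xs ys _; rfl
  | succ n ih =>
    intro a st xs ys ha
    rw [runFrom, hT a ha, ih _ _ _ _ (by omega)]

lemma measurable_runFrom [MeasurableSpace E] [MeasurableSpace Q] [MeasurableSingletonClass Q]
    [Countable Q] {Ω α : Type*} [MeasurableSpace Ω] [MeasurableSpace α]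
    (step : Ω → ℕ → Q → E → ℝ → Q)
    (hstep : ∀ t st, Measurable fun p : Ω × (E × ℝ) => step p.1 t st p.2.1 p.2.2) (n : ℕ) :
    ∀ (a : ℕ) (ω : α → Ω) (st : α → Q) (xs : α → Fin n → E) (ys : α → Fin n → ℝ),
      Measurable ω → Measurable st → Measurable xs → Measurable ys →
      Measurable fun z => runFrom (step (ω z)) n a (st z) (xs z) (ys z) := by
  induction n with
  | zero => intro a ω st xs ys _ hst _ _; exact hst
  | succ n ih =>
    intro a ω st xs ys hω hst hxs hys
    simp only [runFrom]
    refine ih (a + 1) ω _ _ _ hω ?_ ?_ ?_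
    · have h : Measurable fun p : (Ω × (E × ℝ)) × Q => step p.1.1 a p.2 p.1.2.1 p.1.2.2 :=
        measurable_from_prod_countable_left fun q => hstep a q
      exact h.comp (f := fun z => ((ω z, (xs z 0, ys z 0)), st z)) (by fun_prop)
    · exact measurable_pi_iff.2 fun i => (measurable_pi_apply _).comp hxs
    · exact measurable_pi_iff.2 fun i => (measurable_pi_apply _).comp hys

end Run

variable {E : Type*} [NormedAddCommGroup E] [InnerProductSpace ℝ E] [FiniteDimensional ℝ E]
  [MeasurableSpace E] [BorelSpace E]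
  {Q : Type*} [MeasurableSpace Q] [MeasurableSingletonClass Q] [Countable Q]

/-- The expected terminal reward after `n` further samples. -/
noncomputable def value (step : ℕ → Q → E → ℝ → Q) (g : Q → E → ℝ≥0∞) (n a : ℕ) (st : Q)
    (s : E) : ℝ≥0∞ :=
  ∫⁻ xs, g (runFrom step n a st xs (meas xs s)) s ∂gm E n

variable {step : ℕ → Q → E → ℝ → Q} {g : Q → E → ℝ≥0∞}

omit [NormedAddCommGroup E] [InnerProductSpace ℝ E] [FiniteDimensional ℝ E] [BorelSpace E] in
lemma measurable_runFrom' (hstep : ∀ t st, Measurable fun p : E × ℝ => step t st p.1 p.2)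
    (n a : ℕ) {α : Type*} [MeasurableSpace α] {st : α → Q} {xs : α → Fin n → E}
    {ys : α → Fin n → ℝ} (hst : Measurable st) (hxs : Measurable xs) (hys : Measurable ys) :
    Measurable fun z => runFrom step n a (st z) (xs z) (ys z) :=
  measurable_runFrom (Ω := Unit) (fun _ => step) (fun t st => (hstep t st).comp measurable_snd)
    n a (fun _ => ()) st xs ys measurable_const hst hxs hys

lemma measurable_meas (m : ℕ) : Measurable fun q : (Fin m → E) × E => meas q.1 q.2 :=
  (continuous_meas m).measurable

omit [NormedAddCommGroup E] [InnerProductSpace ℝ E] [FiniteDimensional ℝ E] [BorelSpace E] in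
lemma measurable_reward (hg : ∀ q, Measurable (g q)) {α : Type*} [MeasurableSpace α]
    {st : α → Q} {s : α → E} (hst : Measurable st) (hs : Measurable s) :
    Measurable fun z => g (st z) (s z) := by
  have h : Measurable fun p : E × Q => g p.2 p.1 := measurable_from_prod_countable_left hg
  exact h.comp (hs.prodMk hst)

lemma measurable_value (hstep : ∀ t st, Measurable fun p : E × ℝ => step t st p.1 p.2)
    (hg : ∀ q, Measurable (g q)) (n a : ℕ) (st : Q) : Measurable (value step g n a st) := by
  refine Measurable.lintegral_prod_left'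
    (f := fun q : (Fin n → E) × E => g (runFrom step n a st q.1 (meas q.1 q.2)) q.2) ?_
  exact measurable_reward hg
    (measurable_runFrom' hstep n a measurable_const measurable_fst (measurable_meas n))
    measurable_snd

omit [MeasurableSpace Q] [MeasurableSingletonClass Q] [Countable Q] in
lemma value_of_le {T : ℕ} (hT : ∀ t, T ≤ t → ∀ st x y, step t st x y = st) (n a : ℕ)
    (ha : T ≤ a) : value step g n a = g := by
  ext st s
  simp [value, runFrom_of_le step hT n a st _ _ ha]

lemma value_succ (hstep : ∀ t st, Measurable fun p : E × ℝ => step t st p.1 p.2)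
    (hg : ∀ q, Measurable (g q)) (n a : ℕ) (st : Q) (s : E) :
    value step g (n + 1) a st s =
      ∫⁻ x, value step g n (a + 1) (step a st x ⟪x, s⟫) s ∂stdGaussian E := by
  have hmp := measurePreserving_piFinSuccAbove (fun _ : Fin (n + 1) => stdGaussian E) 0
  let F : E × (Fin n → E) → ℝ≥0∞ := fun p =>
    g (runFrom step n (a + 1) (step a st p.1 ⟪p.1, s⟫) p.2 (meas p.2 s)) s
  have hF : Measurable F := by
    refine measurable_reward hg (measurable_runFrom' hstep n (a + 1) ?_ measurable_snd ?_)
      measurable_const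
    · exact (hstep a st).comp (f := fun p : E × (Fin n → E) => (p.1, ⟪p.1, s⟫)) (by fun_prop)
    · exact (measurable_meas n).comp (f := fun p : E × (Fin n → E) => (p.2, s)) (by fun_prop)
  have h1 := hmp.lintegral_comp hF
  rw [lintegral_prod _ hF.aemeasurable] at h1
  exact h1

lemma value_add (hstep : ∀ t st, Measurable fun p : E × ℝ => step t st p.1 p.2)
    (hg : ∀ q, Measurable (g q)) (n m : ℕ) : ∀ (a : ℕ) (st : Q) (s : E),
    value step g (n + m) a st s = value step (value step g n (a + m)) m a st s := by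
  induction m with
  | zero => intro a st s; simp [value, runFrom]
  | succ m ih =>
    intro a st s
    rw [← add_assoc, value_succ hstep hg, value_succ hstep (measurable_value hstep hg _ _)]
    simp_rw [ih]
    rw [add_assoc a 1 m, add_comm 1 m]

lemma frost_value (hstep : ∀ t st, Measurable fun p : E × ℝ => step t st p.1 p.2)
    (hg : ∀ q, Measurable (g q)) {n : ℕ} (hn : 0 < n) {Γ : ℝ≥0∞} (hΓ0 : Γ ≠ 0) (hΓ : Γ ≠ ∞)
    (hreach : ∀ a st, ∃ W : Finset Q, (W.card : ℝ≥0∞) ≤ Γ ^ n ∧
      ∀ xs ys, runFrom step (2 * n) a st xs ys ∈ W)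
    (σ : Measure E) [SFinite σ] {N : ℝ≥0∞} (hN0 : N ≠ 0) (hN : N ≠ ∞)
    (hFr : ∀ w, Frost (σ.withDensity (g w)) (2 * n + 2 * n) N) (j : ℕ) :
    ∀ a st, Frost (σ.withDensity (value step g (j * (2 * n)) a st)) (2 * n + 2 * n)
      (blockConst E n Γ ^ j * N) := by
  have hB0 : blockConst E n Γ ≠ 0 := by simp [blockConst]
  have hB : blockConst E n Γ ≠ ∞ := by
    unfold blockConst
    finiteness
  induction j with
  | zero =>
    intro a st
    have : value step g (0 * (2 * n)) a st = g st := by
      rw [zero_mul]; ext s; simp [value, runFrom]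
    rw [this, pow_zero, one_mul]
    exact hFr st
  | succ j ih =>
    intro a st
    obtain ⟨W, hW, hWr⟩ := hreach a st
    have h := block_frost hn (fun z => runFrom step (2 * n) a st z.1 z.2)
      (measurable_runFrom' hstep _ a measurable_const measurable_fst measurable_snd) W
      (fun z => hWr z.1 z.2) hΓ0 hΓ hW σ (value step g (j * (2 * n)) (a + 2 * n))
      (measurable_value hstep hg _ _) (mul_ne_zero (pow_ne_zero j hB0) hN0)
      (ENNReal.mul_ne_top (ENNReal.pow_ne_top hB) hN) (ih (a + 2 * n))
    have e : value step g ((j + 1) * (2 * n)) a st =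
        value step (value step g (j * (2 * n)) (a + 2 * n)) (2 * n) a st := by
      ext s
      rw [← value_add hstep hg, add_mul, one_mul]
    rw [e, pow_succ', mul_assoc]
    exact h

/-- The total expected reward under a prior carried by the unit ball. -/
lemma lintegral_value_le (hstep : ∀ t st, Measurable fun p : E × ℝ => step t st p.1 p.2)
    (hg : ∀ q, Measurable (g q)) {n : ℕ} (hn : 0 < n) {Γ : ℝ≥0∞} (hΓ0 : Γ ≠ 0) (hΓ : Γ ≠ ∞)
    (hreach : ∀ a st, ∃ W : Finset Q, (W.card : ℝ≥0∞) ≤ Γ ^ n ∧
      ∀ xs ys, runFrom step (2 * n) a st xs ys ∈ W)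
    (σ : Measure E) [SFinite σ] (hσ : ∀ᵐ s ∂σ, s ∈ closedBall (0 : E) 1)
    {N : ℝ≥0∞} (hN0 : N ≠ 0) (hN : N ≠ ∞)
    (hFr : ∀ w, Frost (σ.withDensity (g w)) (2 * n + 2 * n) N) {T : ℕ}
    (hT : ∀ t, T ≤ t → ∀ st x y, step t st x y = st) (st : Q) :
    ∫⁻ s, value step g T 0 st s ∂σ ≤ blockConst E n Γ ^ (T / (2 * n) + 1) * N := by
  have h := frost_value hstep hg hn hΓ0 hΓ hreach σ hN0 hN hFr (T / (2 * n) + 1) 0 st 0 1 one_pos
  have hle : T ≤ (T / (2 * n) + 1) * (2 * n) := by
    have := Nat.lt_div_mul_add (a := T) (b := 2 * n) (by omega)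
    rw [add_mul, one_mul]; omega
  obtain ⟨k, hk⟩ := Nat.exists_eq_add_of_le' hle
  have e : value step g ((T / (2 * n) + 1) * (2 * n)) 0 st = value step g T 0 st := by
    ext s
    rw [hk, value_add hstep hg, value_of_le hT k _ (by omega)]
  rw [e, withDensity_apply _ measurableSet_closedBall, Measure.restrict_eq_self_of_ae_mem hσ] at h
  simpa using h

end Crest.Agent.R322
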