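import Mathlib
import Crest.Prelude.Def_StreamLearn
import Crest.Agent.R322.Tube

set_option autoImplicit false

open MeasureTheory ProbabilityTheory Set Metric Filter Topology
open scoped ENNReal NNReal RealInnerProductSpace Pointwise
open Crest.StreamLearn

namespace Crest.Agent.R322

variable {d : ℕ}

lemma nontrivial_E (hd : 0 < d) : Nontrivial (E d) :=
  Module.nontrivial_of_finrank_pos (R := ℝ) (by simpa using hd)

lemma isProbabilityMeasure_sphereUniform (hd : 0 < d) : IsProbabilityMeasure (sphereUniform d) := by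
  have := nontrivial_E hd
  constructor
  rw [sphereUniform, Measure.smul_apply, smul_eq_mul, ENNReal.inv_mul_cancel]
  · exact Measure.measure_univ_ne_zero.2 (Measure.toSphere_ne_zero (volume : Measure (E d)))
  · exact measure_ne_top _ _

/-- the uniform law on the sphere, as a measure on the ambient space -/
noncomputable def sph (d : ℕ) : Measure (E d) := (sphereUniform d).map Subtype.val

lemma isProbabilityMeasure_sph (hd : 0 < d) : IsProbabilityMeasure (sph d) :=
  have := isProbabilityMeasure_sphereUniform hd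
  Measure.isProbabilityMeasure_map measurable_subtype_coe.aemeasurable

lemma ae_sph_norm (d : ℕ) : ∀ᵐ s ∂sph d, ‖s‖ = 1 := by
  rw [sph, ae_map_iff measurable_subtype_coe.aemeasurable
    (isClosed_eq continuous_norm continuous_const).measurableSet]
  exact Eventually.of_forall fun s => by simp

lemma sph_apply (hd : 0 < d) {A : Set (E d)} (hA : MeasurableSet A) :
    sph d A = (volume (ball (0 : E d) 1))⁻¹ * volume (Ioo (0 : ℝ) 1 • (A ∩ sphere 0 1)) := by
  rw [sph, Measure.map_apply measurable_subtype_coe hA, sphereUniform, Measure.smul_apply,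
    smul_eq_mul, Measure.toSphere_apply_univ, Measure.toSphere_apply' _ (measurable_subtype_coe hA),
    Subtype.image_preimage_coe, inter_comm]
  have h0 : ((Module.finrank ℝ (E d) : ℕ) : ℝ≥0∞) ≠ 0 := by simpa using hd.ne'
  have ht : ((Module.finrank ℝ (E d) : ℕ) : ℝ≥0∞) ≠ ∞ := ENNReal.natCast_ne_top _
  rw [ENNReal.mul_inv (Or.inl h0) (Or.inl ht)]
  calc _ = ((((Module.finrank ℝ (E d) : ℕ) : ℝ≥0∞))⁻¹ * ((Module.finrank ℝ (E d) : ℕ) : ℝ≥0∞)) *
      ((volume (ball (0 : E d) 1))⁻¹ * volume (Ioo (0 : ℝ) 1 • (A ∩ sphere 0 1))) := by ring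
    _ = _ := by rw [ENNReal.inv_mul_cancel h0 ht, one_mul]

lemma frost_volume (d : ℕ) : Frost (volume : Measure (E d)) d (volume (ball (0 : E d) 1)) := by
  intro z ρ hρ
  rw [Measure.addHaar_closedBall _ _ hρ.le, ENNReal.ofReal_pow hρ.le, mul_comm]
  simp

/-- Upper bound for the measure of a cap. -/
lemma sph_closedBall_le (hd : 0 < d) (x : E d) {r : ℝ} (hr : 0 < r) (hr1 : r ≤ 1) :
    sph d (closedBall x r) ≤ ENNReal.ofReal (2 * 4 ^ d * r ^ (d - 1)) := by
  rw [sph_apply hd measurableSet_closedBall]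
  rcases (closedBall x r ∩ sphere 0 1).eq_empty_or_nonempty with h | ⟨x', hx', hx1⟩
  · simp [h]
  let W : Submodule ℝ (E d) := Submodule.span ℝ {x'}
  have hW : Module.finrank ℝ W ≤ 1 := by
    simpa using finrank_span_le_card (R := ℝ) ({x'} : Set (E d))
  have hsub : Ioo (0 : ℝ) 1 • (closedBall x r ∩ sphere 0 1) ⊆ tube W 0 1 (2 * r) := by
    rintro _ ⟨t, ⟨ht0, ht1⟩, a, ⟨ha, ha1⟩, rfl⟩
    have ha1' : ‖a‖ = 1 := by simpa using ha1
    refine ⟨?_, ?_⟩
    · simp only [sub_zero, norm_smul, Real.norm_eq_abs, abs_of_pos ht0, ha1', mul_one]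
      exact ht1.le
    · have h0 : Wᗮ.starProjection x' = 0 := by
        rw [Submodule.starProjection_apply_eq_zero_iff]
        exact Submodule.le_orthogonal_orthogonal W (Submodule.mem_span_singleton_self x')
      have h1 : Wᗮ.starProjection (t • a - 0) = Wᗮ.starProjection (t • (a - x')) := by
        rw [sub_zero, map_smul, map_smul, map_sub, h0, sub_zero]
      rw [h1]
      refine (Wᗮ.norm_starProjection_apply_le _).trans ?_
      rw [norm_smul, Real.norm_eq_abs, abs_of_pos ht0, ← dist_eq_norm]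
      have := dist_triangle_right a x' x
      have h2 : dist a x ≤ r := ha
      have h3 : dist x' x ≤ r := hx'
      nlinarith [dist_nonneg (x := a) (y := x')]
  have h1 := tube_le volume (frost_volume d) W 0 (R := 1) (δ := 2 * r) zero_le_one (by positivity)
  have hv0 : volume (ball (0 : E d) 1) ≠ 0 := (measure_ball_pos _ _ one_pos).ne'
  have hvt : volume (ball (0 : E d) 1) ≠ ∞ := measure_ball_lt_top.ne
  have h2 : ENNReal.ofReal ((1 + 2 * r) / (2 * r)) ^ Module.finrank ℝ W ≤
      ENNReal.ofReal (2 / r) := by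
    calc _ ≤ ENNReal.ofReal ((1 + 2 * r) / (2 * r)) ^ 1 := by
          apply pow_le_pow_right₀ _ hW
          rw [ENNReal.one_le_ofReal, le_div_iff₀ (by positivity)]
          linarith
      _ ≤ _ := by
          rw [pow_one]
          apply ENNReal.ofReal_le_ofReal
          rw [div_le_div_iff₀ (by positivity) hr]
          nlinarith
  calc _ ≤ (volume (ball (0 : E d) 1))⁻¹ * (ENNReal.ofReal (2 / r) *
        (volume (ball (0 : E d) 1) * ENNReal.ofReal (2 * (2 * r)) ^ d)) := by
        gcongr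
        refine (measure_mono hsub).trans (h1.trans ?_)
        gcongr
    _ = ((volume (ball (0 : E d) 1))⁻¹ * volume (ball (0 : E d) 1)) *
        (ENNReal.ofReal (2 / r) * ENNReal.ofReal (2 * (2 * r)) ^ d) := by ring
    _ = _ := by
        rw [ENNReal.inv_mul_cancel hv0 hvt, one_mul, ← ENNReal.ofReal_pow (by positivity),
          ← ENNReal.ofReal_mul (by positivity)]
        congr 1
        obtain ⟨k, rfl⟩ := Nat.exists_eq_add_of_le' hd
        have : 2 * (2 * r) = 4 * r := by ring
        rw [this, mul_pow]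
        simp only [Nat.succ_eq_add_one, zero_add, add_tsub_cancel_right]
        field_simp
        ring

/-- Frostman bound for a cap of radius `ε`. -/
lemma frost_cap {n : ℕ} (hn : 0 < n) (hd : 8 * n ≤ d) {ε : ℝ} (hε : 0 < ε) (hε1 : ε ≤ 1)
    {A : Set (E d)} (hA : MeasurableSet A) (o : E d) (hAo : ∀ s ∈ A, ‖s‖ = 1 → dist s o ≤ ε) :
    Frost ((sph d).withDensity (A.indicator 1)) (2 * n + 2 * n)
      (ENNReal.ofReal (2 * 4 ^ d * ε ^ (3 * n))) := by
  intro z ρ hρ
  have hd0 : 0 < d := by omega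
  rw [withDensity_indicator_one hA, Measure.restrict_apply measurableSet_closedBall,
    ← ENNReal.ofReal_pow hρ.le, ← ENNReal.ofReal_mul (by positivity)]
  rcases le_total ρ ε with h | h
  · refine (measure_mono inter_subset_left).trans
      ((sph_closedBall_le hd0 z hρ (h.trans hε1)).trans ?_)
    apply ENNReal.ofReal_le_ofReal
    rw [mul_assoc (2 * 4 ^ d)]
    gcongr
    calc ρ ^ (d - 1) ≤ ρ ^ (3 * n + (2 * n + 2 * n)) :=
          pow_le_pow_of_le_one hρ.le (h.trans hε1) (by omega)
      _ = ρ ^ (3 * n) * ρ ^ (2 * n + 2 * n) := pow_add _ _ _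
      _ ≤ _ := by gcongr
  · have h1 : sph d (closedBall z ρ ∩ A) ≤ sph d (closedBall o ε) := by
      refine measure_mono_ae ?_
      filter_upwards [ae_sph_norm d] with s hs hs'
      exact hAo s hs'.2 hs
    refine h1.trans ((sph_closedBall_le hd0 o hε hε1).trans ?_)
    apply ENNReal.ofReal_le_ofReal
    rw [mul_assoc (2 * 4 ^ d)]
    gcongr
    calc ε ^ (d - 1) ≤ ε ^ (3 * n + (2 * n + 2 * n)) :=
          pow_le_pow_of_le_one hε.le hε1 (by omega)
      _ = ε ^ (3 * n) * ε ^ (2 * n + 2 * n) := pow_add _ _ _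
      _ ≤ _ := by gcongr

lemma measurePreserving_sph (hd : 0 < d) (f : E d ≃ₗᵢ[ℝ] E d) :
    MeasurePreserving f (sph d) (sph d) := by
  have hf : Measurable f := f.continuous.measurable
  refine ⟨hf, ?_⟩
  ext A hA
  rw [Measure.map_apply hf hA, sph_apply hd hA, sph_apply hd (hf hA)]
  congr 1
  rw [← f.measurePreserving.measure_preimage_emb f.toHomeomorph.measurableEmbedding
    (Ioo (0 : ℝ) 1 • (A ∩ sphere 0 1))]
  congr 1
  ext y
  constructor
  · rintro ⟨t, ht, a, ⟨ha, ha1⟩, rfl⟩
    refine ⟨t, ht, f a, ⟨ha, by simpa using ha1⟩, by simp⟩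
  · rintro ⟨t, ht, a, ⟨ha, ha1⟩, h⟩
    refine ⟨t, ht, f.symm a, ⟨by simpa using ha, by simpa using ha1⟩, ?_⟩
    apply f.injective
    simpa using h

lemma lintegral_inner_sq_eq (hd : 0 < d) {u v : E d} (h : ‖u‖ = ‖v‖) :
    ∫⁻ s, ENNReal.ofReal (⟪u, s⟫ ^ 2) ∂sph d = ∫⁻ s, ENNReal.ofReal (⟪v, s⟫ ^ 2) ∂sph d := by
  let f := (ℝ ∙ (u - v))ᗮ.reflection
  have hf : f u = v := Submodule.reflection_sub h
  rw [← (measurePreserving_sph hd f).lintegral_comp (f := fun s => ENNReal.ofReal (⟪v, s⟫ ^ 2))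
    (by fun_prop), ← hf]
  simp

lemma lintegral_inner_sq (hd : 0 < d) {u : E d} (hu : ‖u‖ = 1) :
    ∫⁻ s, ENNReal.ofReal (⟪u, s⟫ ^ 2) ∂sph d = (d : ℝ≥0∞)⁻¹ := by
  have := isProbabilityMeasure_sph hd
  let b := EuclideanSpace.basisFun (Fin d) ℝ
  have h1 : ∑ i, ∫⁻ s, ENNReal.ofReal (⟪b i, s⟫ ^ 2) ∂sph d = 1 := by
    rw [← lintegral_finsetSum _ fun i _ => by fun_prop]
    have : ∀ᵐ s ∂sph d, ∑ i, ENNReal.ofReal (⟪b i, s⟫ ^ 2) = 1 := by
      filter_upwards [ae_sph_norm d] with s hs
      rw [← ENNReal.ofReal_sum_of_nonneg fun i _ => sq_nonneg _, b.sum_sq_inner_right, hs]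
      simp
    rw [lintegral_congr_ae this]
    simp
  have h2 : ∀ i, ∫⁻ s, ENNReal.ofReal (⟪b i, s⟫ ^ 2) ∂sph d =
      ∫⁻ s, ENNReal.ofReal (⟪u, s⟫ ^ 2) ∂sph d := fun i =>
    lintegral_inner_sq_eq hd (by rw [hu, b.orthonormal.1 i])
  simp_rw [h2] at h1
  rw [Finset.sum_const, Finset.card_univ, Fintype.card_fin, nsmul_eq_mul] at h1
  exact ENNReal.eq_inv_of_mul_eq_one_left (by rw [mul_comm]; exact h1)

lemma lintegral_norm_proj_sq (hd : 0 < d) (K : Submodule ℝ (E d)) :
    ∫⁻ s, ENNReal.ofReal (‖K.starProjection s‖ ^ 2) ∂sph d =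
      Module.finrank ℝ K * (d : ℝ≥0∞)⁻¹ := by
  let c := stdOrthonormalBasis ℝ K
  have h1 : ∀ s : E d, ENNReal.ofReal (‖K.starProjection s‖ ^ 2) =
      ∑ j, ENNReal.ofReal (⟪(c j : E d), s⟫ ^ 2) := by
    intro s
    rw [← ENNReal.ofReal_sum_of_nonneg fun i _ => sq_nonneg _]
    congr 1
    have := c.sum_sq_inner_right (K.orthogonalProjectionOnto s)
    simp_rw [Submodule.inner_orthogonalProjectionOnto_eq_of_mem_left] at this
    rw [this]
    rfl
  simp_rw [h1]
  rw [lintegral_finsetSum _ fun i _ => by fun_prop]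
  have h2 : ∀ j, ∫⁻ s, ENNReal.ofReal (⟪(c j : E d), s⟫ ^ 2) ∂sph d = (d : ℝ≥0∞)⁻¹ := fun j =>
    lintegral_inner_sq hd (c.orthonormal.1 j)
  simp [h2]

/-- The reflection argument: a set that cannot contain a point and its mirror image unless they
are close has measure not much larger than one half. -/
lemma sph_le_of_reflection (hd : 0 < d) (K : Submodule ℝ (E d)) {T : ℕ}
    (hK : Module.finrank ℝ K ≤ T) {A : Set (E d)} (hA : MeasurableSet A)
    (h : ∀ s ∈ A, ‖s‖ = 1 → K.reflection s ∈ A → dist s (K.reflection s) ≤ 1 / 5) :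
    sph d A ≤ ENNReal.ofReal (1 / 2 + 50 / 99 * (T / d)) := by
  have := isProbabilityMeasure_sph hd
  have hmp := measurePreserving_sph hd K.reflection
  have hA' : MeasurableSet (K.reflection ⁻¹' A) := hmp.measurable hA
  have h1 := measure_union_add_inter (μ := sph d) A hA'
  rw [hmp.measure_preimage hA.nullMeasurableSet] at h1
  have h2 : ENNReal.ofReal (99 / 100) * sph d (A ∩ K.reflection ⁻¹' A) ≤ T * (d : ℝ≥0∞)⁻¹ := by
    calc ENNReal.ofReal (99 / 100) * sph d (A ∩ K.reflection ⁻¹' A)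
        ≤ ENNReal.ofReal (99 / 100) *
          sph d {s | ENNReal.ofReal (99 / 100) ≤ ENNReal.ofReal (‖K.starProjection s‖ ^ 2)} := by
          refine mul_le_mul_right (measure_mono_ae ?_) _
          filter_upwards [ae_sph_norm d] with s hs hs'
          have h3 := h s hs'.1 hs hs'.2
          have h4 : s - K.reflection s = (2 : ℝ) • Kᗮ.starProjection s := by
            rw [Submodule.reflection_apply, Submodule.starProjection_orthogonal_val, two_smul,
              two_smul]
            abel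
          rw [dist_eq_norm, h4, norm_smul] at h3
          have h5 := Submodule.norm_sq_eq_add_norm_sq_starProjection s K
          rw [hs] at h5
          apply ENNReal.ofReal_le_ofReal
          have h6 : ‖Kᗮ.starProjection s‖ ≤ 1 / 10 := by
            simp only [Real.norm_ofNat] at h3
            linarith
          nlinarith [norm_nonneg (Kᗮ.starProjection s)]
      _ ≤ ∫⁻ s, ENNReal.ofReal (‖K.starProjection s‖ ^ 2) ∂sph d :=
          mul_meas_ge_le_lintegral (by fun_prop) _
      _ ≤ _ := by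
          rw [lintegral_norm_proj_sq hd]
          gcongr
  have hd' : (0 : ℝ) < d := by exact_mod_cast hd
  have h3 : (sph d).real (A ∩ K.reflection ⁻¹' A) ≤ 100 / 99 * (T / d) := by
    have := ENNReal.toReal_mono (by
      refine ENNReal.mul_ne_top (by simp) ?_
      simpa using hd.ne') h2
    simp only [ENNReal.toReal_mul, ENNReal.toReal_inv, ENNReal.toReal_natCast] at this
    rw [ENNReal.toReal_ofReal (by norm_num)] at this
    rw [measureReal_def, div_eq_mul_inv (T : ℝ)]
    linarith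
  have h4 : (sph d).real (A ∪ K.reflection ⁻¹' A) ≤ 1 := measureReal_le_one
  have h5 := congrArg ENNReal.toReal h1
  rw [ENNReal.toReal_add (measure_ne_top _ _) (measure_ne_top _ _),
    ENNReal.toReal_add (measure_ne_top _ _) (measure_ne_top _ _)] at h5
  rw [← ofReal_measureReal]
  apply ENNReal.ofReal_le_ofReal
  simp only [measureReal_def] at h3 h4 ⊢
  linarith

end Crest.Agent.R322
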