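import Mathlib
import Crest.Prelude.Def_StreamLearn
import Crest.Agent.R322.Markov
import Crest.Agent.R322.Sphere

set_option autoImplicit false

open MeasureTheory ProbabilityTheory Set Metric Filter Topology
open scoped ENNReal NNReal RealInnerProductSpace
open Crest.StreamLearn

namespace Crest.Agent.R322

variable {d T M : ℕ} (L : RLearner d T M)

/-- extended states: memory content and stopping index -/
def LQ : Type := L.St × Option ℕ

instance : MeasurableSpace (LQ L) := ⊤
instance : MeasurableSingletonClass (LQ L) := ⟨fun _ => trivial⟩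
instance : Countable (LQ L) :=
  have := L.fin
  inferInstanceAs (Countable (L.St × Option ℕ))

/-- the seed space -/
def LΩ : Type := L.Ω

instance : MeasurableSpace (LΩ L) := L.mΩ

/-- the law of the seed -/
def Lρ : Measure (LΩ L) := L.ρ

instance : IsProbabilityMeasure (Lρ L) := L.prob

/-- one step of the learner on extended states -/
def lstep (ω : LΩ L) (t : ℕ) (st : LQ L) (x : E d) (y : ℝ) : LQ L :=
  if h : t < T then
    (if st.2.isSome then st else
      if (L.trans ⟨t, h⟩ ω st.1 x y).2 then ((L.trans ⟨t, h⟩ ω st.1 x y).1, some (t + 1))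
      else ((L.trans ⟨t, h⟩ ω st.1 x y).1, none))
  else st

/-- the extended starting state -/
def lstart (ω : LΩ L) : LQ L := (L.init ω, if L.stopFirst ω then some 0 else none)

/-- the output attached to an extended state -/
def lout (ω : LΩ L) (st : LQ L) : E d := L.out (st.2.getD T) ω st.1

lemma run_eq (ω : LΩ L) (s : E d) (xs : Fin T → E d) :
    L.run ω s xs = runFrom (lstep L ω) T 0 (lstart L ω) xs (meas xs s) := by
  rw [← foldl_eq_runFrom, RLearner.run]
  congr 1
  ext1 q
  ext1 t
  simp only [lstep, zero_add, t.isLt, dif_pos, Fin.eta, meas]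
  rfl

lemma output_eq (ω : LΩ L) (s : E d) (xs : Fin T → E d) :
    L.output ω s xs = lout L ω (runFrom (lstep L ω) T 0 (lstart L ω) xs (meas xs s)) := by
  rw [← run_eq]; rfl

lemma lstep_of_le (ω : LΩ L) (t : ℕ) (ht : T ≤ t) (st : LQ L) (x : E d) (y : ℝ) :
    lstep L ω t st x y = st := by
  simp [lstep, not_lt.2 ht]

lemma measurable_lstep (t : ℕ) (st : LQ L) :
    Measurable fun p : LΩ L × (E d × ℝ) => lstep L p.1 t st p.2.1 p.2.2 := by
  by_cases h : t < T
  · have := L.fin
    let : MeasurableSpace L.St := ⊤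
    have : MeasurableSingletonClass L.St := ⟨fun _ => trivial⟩
    let G : L.St × Bool → LQ L := fun u =>
      if st.2.isSome then st else if u.2 then (u.1, some (t + 1)) else (u.1, none)
    have hG : Measurable G := measurable_of_countable G
    have h1 := (L.trans_measurable ⟨t, h⟩ st.1).1
    have h2 := (L.trans_measurable ⟨t, h⟩ st.1).2
    have h3 := hG.comp (h1.prodMk h2)
    have e : (fun p : LΩ L × (E d × ℝ) => lstep L p.1 t st p.2.1 p.2.2) =
        G ∘ fun p : LΩ L × (E d × ℝ) => ((L.trans ⟨t, h⟩ p.1 st.1 p.2.1 p.2.2).1,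
          (L.trans ⟨t, h⟩ p.1 st.1 p.2.1 p.2.2).2) := by
      ext1 p
      simp only [lstep, h, dif_pos, G, Function.comp_apply]
    rw [e]
    exact h3
  · simp only [lstep, h, dif_neg, not_false_eq_true]
    exact measurable_const

lemma measurable_lstart : Measurable (lstart L) := by
  have := L.fin
  let : MeasurableSpace L.St := ⊤
  have : MeasurableSingletonClass L.St := ⟨fun _ => trivial⟩
  let G : L.St × Bool → LQ L := fun u => (u.1, if u.2 then some 0 else none)
  have hG : Measurable G := measurable_of_countable G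
  exact hG.comp (L.init_measurable.prodMk L.stopFirst_measurable)

lemma measurable_lout : Measurable fun p : LΩ L × LQ L => lout L p.1 p.2 :=
  measurable_from_prod_countable_left fun st => L.out_measurable (st.2.getD T) st.1

lemma norm_lout (ω : LΩ L) (st : LQ L) : ‖lout L ω st‖ = 1 := L.out_unit _ _ _

lemma measurable_output :
    Measurable fun p : E d × (LΩ L × (Fin T → E d)) => L.output p.2.1 p.1 p.2.2 := by
  simp_rw [output_eq]
  refine (measurable_lout L).comp (f := fun p : E d × (LΩ L × (Fin T → E d)) =>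
    (p.2.1, runFrom (lstep L p.2.1) T 0 (lstart L p.2.1) p.2.2 (meas p.2.2 p.1))) ?_
  refine Measurable.prodMk (by fun_prop) ?_
  refine measurable_runFrom (lstep L) (measurable_lstep L) T 0 _ _ _ _ (by fun_prop)
    ((measurable_lstart L).comp (by fun_prop)) (by fun_prop) ?_
  exact (measurable_meas T).comp (f := fun p : E d × (LΩ L × (Fin T → E d)) => (p.2.2, p.1))
    (by fun_prop)

/-- the success event -/
def succSet (ε : ℝ) : Set (E d × (LΩ L × (Fin T → E d))) :=
  {p | Real.arccos ⟪L.output p.2.1 p.1 p.2.2, p.1⟫ ≤ ε}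

lemma measurableSet_succSet (ε : ℝ) : MeasurableSet (succSet L ε) := by
  refine measurableSet_le ?_ measurable_const
  exact Real.continuous_arccos.measurable.comp ((measurable_output L).inner measurable_fst)

lemma successProb_eq (hd : 0 < d) (ε : ℝ) :
    L.successProb ε = ((sph d).prod ((Lρ L).prod (gm (E d) T))).real (succSet L ε) := by
  have := isProbabilityMeasure_sphereUniform hd
  have h : MeasurePreserving (Prod.map (Subtype.val : Sphere d → E d) id)
      ((sphereUniform d).prod ((Lρ L).prod (gm (E d) T)))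
      ((sph d).prod ((Lρ L).prod (gm (E d) T))) :=
    MeasurePreserving.prod ⟨measurable_subtype_coe, rfl⟩ (MeasurePreserving.id _)
  rw [measureReal_def, ← h.measure_preimage (measurableSet_succSet L ε).nullMeasurableSet]
  rfl

lemma dist_le_of_arccos_le {u v : E d} (hu : ‖u‖ = 1) (hv : ‖v‖ = 1) {ε : ℝ}
    (h : Real.arccos ⟪u, v⟫ ≤ ε) : dist v u ≤ ε := by
  have h1 : |⟪u, v⟫| ≤ 1 := by simpa [hu, hv] using abs_real_inner_le_norm u v
  have h2 := Real.cos_arccos (abs_le.1 h1).1 (abs_le.1 h1).2
  have h3 := Real.one_sub_sq_div_two_le_cos (x := Real.arccos ⟪u, v⟫)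
  have h4 := Real.arccos_nonneg ⟪u, v⟫
  rw [dist_comm, dist_eq_norm]
  refine le_trans ?_ h
  refine (pow_le_pow_iff_left₀ (norm_nonneg _) h4 two_ne_zero).1 ?_
  rw [norm_sub_sq_real, hu, hv]
  linarith

lemma lstep_reach (ω : LΩ L) (k : ℕ) : ∀ (a : ℕ) (st : LQ L) (xs : Fin k → E d) (ys : Fin k → ℝ),
    runFrom (lstep L ω) k a st xs ys = st ∨ (runFrom (lstep L ω) k a st xs ys).2 = none ∨
      ∃ j ∈ Finset.Ioc a (a + k), (runFrom (lstep L ω) k a st xs ys).2 = some j := by
  induction k with
  | zero => intro a st xs ys; exact Or.inl rfl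
  | succ k ih =>
    intro a st xs ys
    rw [runFrom]
    rcases ih (a + 1) (lstep L ω a st (xs 0) (ys 0)) (Fin.tail xs) (Fin.tail ys) with
      h | h | ⟨j, hj, h⟩
    · rw [h]
      unfold lstep
      split_ifs
      · exact Or.inl rfl
      · exact Or.inr (Or.inr ⟨a + 1, by simp, rfl⟩)
      · exact Or.inr (Or.inl rfl)
      · exact Or.inl rfl
    · exact Or.inr (Or.inl h)
    · refine Or.inr (Or.inr ⟨j, ?_, h⟩)
      simp only [Finset.mem_Ioc] at hj ⊢
      omega

lemma lstep_reach_card (ω : LΩ L) (k a : ℕ) (st : LQ L) :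
    ∃ W : Finset (LQ L), W.card ≤ 2 ^ M * (k + 1) + 1 ∧
      ∀ xs ys, runFrom (lstep L ω) k a st xs ys ∈ W := by
  classical
  let := L.fin
  let W₀ : Finset (L.St × Option ℕ) :=
    Finset.univ ×ˢ insert none ((Finset.Ioc a (a + k)).image some)
  have hW₀ : W₀.card ≤ 2 ^ M * (k + 1) := by
    rw [Finset.card_product, Finset.card_univ]
    have h1 : (insert none ((Finset.Ioc a (a + k)).image some)).card ≤ k + 1 := by
      refine (Finset.card_insert_le _ _).trans ?_
      have := Finset.card_image_le (s := Finset.Ioc a (a + k)) (f := some)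
      simp only [Nat.card_Ioc, add_tsub_cancel_left] at this
      omega
    have h2 := L.card_le
    gcongr
  have hmem : ∀ z : L.St × Option ℕ, (z.2 = none ∨ ∃ j ∈ Finset.Ioc a (a + k), z.2 = some j) →
      z ∈ W₀ := by
    intro z hz
    refine Finset.mem_product.2 ⟨Finset.mem_univ _, ?_⟩
    rcases hz with h | ⟨j, hj, h⟩
    · rw [h]; exact Finset.mem_insert_self _ _
    · rw [h]; exact Finset.mem_insert_of_mem (Finset.mem_image_of_mem _ hj)
  let W₁ : Finset (LQ L) := W₀
  refine ⟨insert st W₁, (Finset.card_insert_le _ _).trans (Nat.succ_le_succ hW₀), fun xs ys => ?_⟩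
  rcases lstep_reach L ω k a st xs ys with h | h
  · rw [h]; exact Finset.mem_insert_self _ _
  · exact Finset.mem_insert_of_mem (hmem _ h)

/-- Few samples cannot give even a constant accuracy. -/
lemma success_le_small (hd : 0 < d) {ε : ℝ} (hε : ε ≤ 1 / 10) :
    L.successProb ε ≤ 1 / 2 + 50 / 99 * (T / d) := by
  have := isProbabilityMeasure_sph hd
  rw [successProb_eq L hd, measureReal_def]
  refine ENNReal.toReal_le_of_le_ofReal (by positivity) ?_
  rw [Measure.prod_apply_symm (measurableSet_succSet L ε)]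
  calc _ ≤ ∫⁻ _, ENNReal.ofReal (1 / 2 + 50 / 99 * (T / d)) ∂(Lρ L).prod (gm (E d) T) := by
        refine lintegral_mono fun z => ?_
        let K : Submodule ℝ (E d) := Submodule.span ℝ (range z.2)
        have hK : Module.finrank ℝ K ≤ T := by
          have h : Module.finrank ℝ K ≤ Fintype.card (Fin T) := finrank_range_le_card (R := ℝ) z.2
          simpa using h
        refine sph_le_of_reflection hd K hK
          (measurable_prodMk_right (measurableSet_succSet L ε)) ?_
        intro s hs hs1 hs'
        have hm : meas z.2 (K.reflection s) = meas z.2 s := by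
          ext i
          have hi : K.reflection (z.2 i) = z.2 i :=
            Submodule.reflection_mem_subspace_eq_self (Submodule.subset_span (mem_range_self i))
          simp only [meas]
          conv_lhs => rw [← hi]
          rw [LinearIsometryEquiv.inner_map_map]
        simp only [succSet, mem_preimage, mem_ofPred_eq, output_eq, hm] at hs hs'
        have h1 := dist_le_of_arccos_le (norm_lout L _ _) hs1 hs
        have h2 := dist_le_of_arccos_le (norm_lout L _ _) (by simpa using hs1) hs'
        have := dist_triangle_right s (K.reflection s)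
          (lout L z.1 (runFrom (lstep L z.1) T 0 (lstart L z.1) z.2 (meas z.2 s)))
        linarith
    _ = _ := by simp

/-- The memory bound. -/
lemma success_le_main {n : ℕ} (hn : 0 < n) (hd : 8 * n ≤ d) {ε : ℝ} (hε : 0 < ε) (hε1 : ε ≤ 1)
    {Γ : ℝ≥0∞} (hΓ0 : Γ ≠ 0) (hΓ : Γ ≠ ∞)
    (hcard : ((2 ^ M * (2 * n + 1) + 1 : ℕ) : ℝ≥0∞) ≤ Γ ^ n) :
    ENNReal.ofReal (L.successProb ε) ≤
      blockConst (E d) n Γ ^ (T / (2 * n) + 1) * ENNReal.ofReal (2 * 4 ^ d * ε ^ (3 * n)) := by
  have hd0 : 0 < d := by omega
  have := isProbabilityMeasure_sph hd0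
  have hS := measurableSet_succSet L ε
  rw [successProb_eq L hd0, ofReal_measureReal]
  let A : LΩ L → LQ L → Set (E d) := fun ω st => {s | Real.arccos ⟪lout L ω st, s⟫ ≤ ε}
  have hA : ∀ ω st, MeasurableSet (A ω st) := fun ω st =>
    measurableSet_le (Real.continuous_arccos.measurable.comp (by fun_prop)) measurable_const
  let g : LΩ L → LQ L → E d → ℝ≥0∞ := fun ω st => (A ω st).indicator 1
  have hI : Measurable ((succSet L ε).indicator (1 : E d × (LΩ L × (Fin T → E d)) → ℝ≥0∞)) := measurable_one.indicator hS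
  have h1 : ∀ s ω, ∫⁻ xs, (succSet L ε).indicator (1 : E d × (LΩ L × (Fin T → E d)) → ℝ≥0∞) (s, ω, xs) ∂gm (E d) T =
      value (lstep L ω) (g ω) T 0 (lstart L ω) s := by
    intro s ω
    refine lintegral_congr fun xs => ?_
    simp only [g, A, indicator, succSet, mem_ofPred_eq, output_eq, Pi.one_apply]
  have h2 : ∀ s, ∫⁻ z, (succSet L ε).indicator (1 : E d × (LΩ L × (Fin T → E d)) → ℝ≥0∞) (s, z) ∂(Lρ L).prod (gm (E d) T) =
      ∫⁻ ω, ∫⁻ xs, (succSet L ε).indicator (1 : E d × (LΩ L × (Fin T → E d)) → ℝ≥0∞) (s, ω, xs) ∂gm (E d) T ∂Lρ L :=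
    fun s => lintegral_prod _ (hI.comp measurable_prodMk_left).aemeasurable
  have h3 : Measurable (Function.uncurry fun (s : E d) (ω : LΩ L) =>
      ∫⁻ xs, (succSet L ε).indicator (1 : E d × (LΩ L × (Fin T → E d)) → ℝ≥0∞) (s, ω, xs) ∂gm (E d) T) := by
    refine Measurable.lintegral_prod_right'
      (f := fun q : (E d × LΩ L) × (Fin T → E d) =>
        (succSet L ε).indicator (1 : E d × (LΩ L × (Fin T → E d)) → ℝ≥0∞) (q.1.1, q.1.2, q.2)) (hI.comp (by fun_prop))
  rw [← lintegral_indicator_one hS, lintegral_prod _ hI.aemeasurable]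
  simp_rw [h2]
  rw [lintegral_lintegral_swap h3.aemeasurable]
  simp_rw [h1]
  calc _ ≤ ∫⁻ _, blockConst (E d) n Γ ^ (T / (2 * n) + 1) *
        ENNReal.ofReal (2 * 4 ^ d * ε ^ (3 * n)) ∂Lρ L := by
        refine lintegral_mono fun ω => ?_
        refine lintegral_value_le (fun t st => (measurable_lstep L t st).comp
          (measurable_prodMk_left (x := ω))) (fun st => measurable_one.indicator (hA ω st))
          hn hΓ0 hΓ ?_ (sph d) ?_ ?_ ENNReal.ofReal_ne_top ?_ (lstep_of_le L ω) _
        · intro a st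
          obtain ⟨W, hW, hW'⟩ := lstep_reach_card L ω (2 * n) a st
          exact ⟨W, le_trans (by exact_mod_cast hW) hcard, hW'⟩
        · filter_upwards [ae_sph_norm d] with s hs
          simp [hs]
        · have : 0 < 2 * 4 ^ d * ε ^ (3 * n) := by positivity
          simpa using this
        · intro st
          exact frost_cap hn hd hε hε1 (hA ω st) (lout L ω st) fun s hs hs1 =>
            dist_le_of_arccos_le (norm_lout L ω st) hs1 hs
    _ = _ := by simp

end Crest.Agent.R322
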