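import Mathlib
import Crest.Agent.R322.Learner

set_option autoImplicit false

open MeasureTheory ProbabilityTheory Set Metric Filter Topology
open scoped ENNReal NNReal RealInnerProductSpace
open Crest.StreamLearn

namespace Crest.Agent.R322

lemma ball_const_le {d n : ℕ} (hd : d ≤ 16 * n) :
    (d : ℝ) ^ n * (Real.pi ^ n / n.factorial) ≤ 2 ^ (8 * n) := by
  have h1 : (d : ℝ) ≤ 16 * n := by exact_mod_cast hd
  have h2 : (n : ℝ) ^ n / n.factorial ≤ 3 ^ n := by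
    refine (Real.pow_div_factorial_le_exp (n : ℝ) (by positivity) n).trans ?_
    rw [← Real.exp_one_pow]
    gcongr
    linarith [Real.exp_one_lt_d9]
  calc (d : ℝ) ^ n * (Real.pi ^ n / n.factorial)
      ≤ (16 * n) ^ n * (4 ^ n / n.factorial) := by
        gcongr
        exact Real.pi_le_four
    _ = 64 ^ n * ((n : ℝ) ^ n / n.factorial) := by
        rw [mul_pow, show (64 : ℝ) = 16 * 4 by norm_num, mul_pow]; ring
    _ ≤ 64 ^ n * 3 ^ n := by gcongr
    _ = 192 ^ n := by rw [← mul_pow]; norm_num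
    _ ≤ 256 ^ n := by gcongr; norm_num
    _ = 2 ^ (8 * n) := by rw [pow_mul]; norm_num

lemma blockConst_le {d n G : ℕ} (hn : 0 < n) (hd : d ≤ 16 * n) :
    blockConst (E d) n (2 ^ ((G + 2) * n)) ≤ 2 ^ ((G + 21) * n) := by
  have h1 : ENNReal.ofReal ((Module.finrank ℝ (E d) : ℝ) ^ n * (Real.pi ^ n / n.factorial)) ≤
      2 ^ (8 * n) := by
    have : (2 : ℝ≥0∞) ^ (8 * n) = ENNReal.ofReal (2 ^ (8 * n)) := by
      rw [ENNReal.ofReal_pow (by norm_num)]; simp
    rw [this]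
    apply ENNReal.ofReal_le_ofReal
    simpa using ball_const_le hd
  have h4 : (4 : ℝ≥0∞) = 2 ^ 2 := by norm_num
  have h12 : (1 : ℝ≥0∞) ≤ 2 := by norm_num
  calc blockConst (E d) n (2 ^ ((G + 2) * n))
      ≤ 2 ^ ((G + 2) * n) * (2 ^ (n + 1) * 4 ^ (2 * n + 2 * n)) * 2 ^ (8 * n) + 1 := by
        unfold blockConst; gcongr
    _ = 2 ^ ((G + 19) * n + 1) + 1 := by
        rw [h4, ← pow_mul, ← pow_add, ← pow_add, ← pow_add]
        congr 2; ring
    _ ≤ 2 ^ ((G + 19) * n + 1) + 2 ^ ((G + 19) * n + 1) := by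
        gcongr; exact one_le_pow₀ h12
    _ = 2 ^ ((G + 19) * n + 2) := by ring
    _ ≤ _ := by
        apply pow_le_pow_right₀ h12
        nlinarith

lemma card_bound {M n G : ℕ} (hn : 0 < n) (hM : M ≤ G * n ^ 2) :
    2 ^ M * (2 * n + 1) + 1 ≤ (2 ^ ((G + 2) * n)) ^ n := by
  have h1 : 2 * n + 2 ≤ 2 ^ (2 * n) := by
    have : n < 2 ^ n := Nat.lt_two_pow_self
    have h2 : 2 ≤ 2 ^ n := by
      calc 2 = 2 ^ 1 := rfl
        _ ≤ 2 ^ n := Nat.pow_le_pow_right (by norm_num) hn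
    rw [two_mul n, pow_add]
    nlinarith
  have h2 : 1 ≤ 2 ^ M := Nat.one_le_two_pow
  calc 2 ^ M * (2 * n + 1) + 1 ≤ 2 ^ M * (2 * n + 2) := by nlinarith
    _ ≤ 2 ^ M * 2 ^ (2 * n) := by gcongr
    _ = 2 ^ (M + 2 * n) := by rw [pow_add]
    _ ≤ 2 ^ ((G + 2) * n * n) := by
        apply Nat.pow_le_pow_right (by norm_num)
        nlinarith
    _ = _ := by rw [pow_mul]

theorem main :
    ∀ A : ℝ, 0 < A → ∃ c : ℝ, 0 < c ∧ ∃ d₀ : ℕ, ∀ d ≥ d₀, ∀ (M T : ℕ),
      (M : ℝ) ≤ A * (d : ℝ) ^ 2 → ∀ ε : ℝ, 0 < ε → ε ≤ 1 / 10 →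
        ∀ L : Crest.StreamLearn.RLearner d T M,
          2 / 3 ≤ L.successProb ε → c * d * Real.log (1 / ε) ≤ T := by
  intro A hA
  set G : ℕ := ⌈256 * A⌉₊ with hG
  refine ⟨1 / (6 * (G + 39)), by positivity, 8, fun d hd M T hM ε hε hε1 L hL => ?_⟩
  set n : ℕ := d / 8 with hn
  have hn0 : 0 < n := by omega
  have hn1 : 8 * n ≤ d := by omega
  have hn2 : d ≤ 16 * n := by omega
  have hd0 : 0 < d := by omega
  have hd' : (0 : ℝ) < d := by exact_mod_cast hd0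
  have hn2' : (d : ℝ) ≤ 16 * n := by exact_mod_cast hn2
  -- a linear number of samples is needed
  have hT : 2 * n ≤ T := by
    have h1 := hL.trans (success_le_small L hd0 hε1)
    have h2 : (33 / 100 : ℝ) ≤ T / d := by linarith
    rw [le_div_iff₀ hd'] at h2
    have h3 : (8 * n : ℝ) ≤ d := by exact_mod_cast hn1
    have h4 : (2 * n : ℝ) ≤ T := by linarith
    exact_mod_cast h4
  have hMG : M ≤ G * n ^ 2 := by
    have h1 : 256 * A ≤ G := Nat.le_ceil _
    have h2 : (M : ℝ) ≤ G * (n : ℝ) ^ 2 := by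
      calc (M : ℝ) ≤ A * (d : ℝ) ^ 2 := hM
        _ ≤ A * (16 * n) ^ 2 := by gcongr
        _ = 256 * A * (n : ℝ) ^ 2 := by ring
        _ ≤ _ := by gcongr
    exact_mod_cast h2
  have hmain := success_le_main L hn0 hn1 hε (by linarith) (Γ := 2 ^ ((G + 2) * n))
    (by positivity) (by finiteness) (by exact_mod_cast card_bound hn0 hMG)
  have hb : (G + 21) * n * (T / (2 * n) + 1) ≤ (G + 21) * T := by
    have h1 : 2 * n * (T / (2 * n)) ≤ T := Nat.mul_div_le _ _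
    rw [mul_assoc]
    gcongr
    nlinarith
  have h12 : (1 : ℝ≥0∞) ≤ 2 := by norm_num
  have h1 : ENNReal.ofReal (2 / 3) ≤
      ENNReal.ofReal (2 ^ ((G + 21) * T) * (2 * 4 ^ d * ε ^ (3 * n))) := by
    calc ENNReal.ofReal (2 / 3) ≤ ENNReal.ofReal (L.successProb ε) := by gcongr
      _ ≤ _ := hmain
      _ ≤ (2 ^ ((G + 21) * n)) ^ (T / (2 * n) + 1) *
            ENNReal.ofReal (2 * 4 ^ d * ε ^ (3 * n)) := by
          gcongr
          exact blockConst_le hn0 hn2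
      _ ≤ 2 ^ ((G + 21) * T) * ENNReal.ofReal (2 * 4 ^ d * ε ^ (3 * n)) := by
          rw [← pow_mul]
          gcongr
      _ = _ := by
          rw [ENNReal.ofReal_mul (p := 2 ^ ((G + 21) * T)) (by positivity),
            ENNReal.ofReal_pow (p := 2) (by norm_num)]
          simp
  rw [ENNReal.ofReal_le_ofReal_iff (by positivity)] at h1
  have h2 : (1 / ε) ^ (3 * n) ≤ 2 ^ ((G + 39) * T) := by
    have h3 : (4 : ℝ) ^ d ≤ 2 ^ (16 * T) := by
      rw [show (4 : ℝ) = 2 ^ 2 by norm_num, ← pow_mul]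
      apply pow_le_pow_right₀ (by norm_num)
      omega
    have h4 : (4 : ℝ) ≤ 2 ^ (2 * T) := by
      rw [show (4 : ℝ) = 2 ^ 2 by norm_num]
      apply pow_le_pow_right₀ (by norm_num)
      omega
    have h5 : (2 : ℝ) ^ ((G + 39) * T) = 2 ^ ((G + 21) * T) * (2 ^ (2 * T) * 2 ^ (16 * T)) := by
      rw [← pow_add, ← pow_add]; congr 1; ring
    rw [one_div, inv_pow, inv_le_iff_one_le_mul₀ (by positivity), h5]
    calc (1 : ℝ) ≤ 2 * (2 / 3) := by norm_num
      _ ≤ 2 * (2 ^ ((G + 21) * T) * (2 * 4 ^ d * ε ^ (3 * n))) := by gcongr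
      _ = 2 ^ ((G + 21) * T) * (4 * 4 ^ d) * ε ^ (3 * n) := by ring
      _ ≤ _ := by gcongr
  have h3 := Real.log_le_log (by positivity) h2
  rw [Real.log_pow, Real.log_pow] at h3
  have hlog2 : Real.log 2 ≤ 1 := by linarith [Real.log_two_lt_d9]
  have hlog : 0 ≤ Real.log (1 / ε) := by
    apply Real.log_nonneg
    rw [le_div_iff₀ hε]; linarith
  push_cast at h3
  have h4 : 3 * n * Real.log (1 / ε) ≤ (G + 39) * T :=
    h3.trans (mul_le_of_le_one_right (by positivity) hlog2)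
  rw [one_div, mul_assoc, inv_mul_le_iff₀ (by positivity)]
  calc (d : ℝ) * Real.log (1 / ε) ≤ 16 * n * Real.log (1 / ε) := by gcongr
    _ ≤ 6 * (3 * n * Real.log (1 / ε)) := by
        have : 0 ≤ n * Real.log (1 / ε) := by positivity
        nlinarith
    _ ≤ 6 * ((G + 39) * T) := by gcongr
    _ = _ := by ring

end Crest.Agent.R322
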